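import Vale.Agent.P132.Endgame.Resolvent

/-!
# P132 endgame: two periods turn an approximate eigenvector into an exact one
-/

noncomputable section

namespace P132.Endgame

open Filter Topology Complex MeasureTheory

variable {K : Type*} [NormedAddCommGroup K] [InnerProductSpace ℂ K] [CompleteSpace K]

namespace UGroup

variable (W : UGroup K)

/-- Fourier coefficient over one period. -/
def avg (θ : ℝ) (y : K) : K :=
  ∫ u in (0 : ℝ)..1, Complex.exp (-(I * (θ * u : ℝ))) • W.op u y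

omit [CompleteSpace K] in
lemma continuous_avg_integrand (θ : ℝ) (y : K) :
    Continuous fun u : ℝ => Complex.exp (-(I * (θ * u : ℝ))) • W.op u y :=
  (by fun_prop : Continuous fun u : ℝ => Complex.exp (-(I * (θ * u : ℝ)))).smul (W.cont y)

lemma op_avg (θ w : ℝ) (y : K) (hper : W.op 1 = 1) (hθ : Complex.exp (I * (θ : ℝ)) = 1) :
    W.op w (W.avg θ y) = Complex.exp (I * (θ * w : ℝ)) • W.avg θ y := by
  have hint := (W.continuous_avg_integrand θ y).intervalIntegrable (μ := volume) 0 1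
  rw [avg, ← (W.op w).intervalIntegral_comp_comm hint]
  set g : ℝ → K := fun u => Complex.exp (-(I * (θ * u : ℝ))) • W.op u y
  have hg : ∀ u, W.op w (g u) = Complex.exp (I * (θ * w : ℝ)) • g (u + w) := by
    intro u
    simp only [g, map_smul, smul_smul, ← Complex.exp_add, ← W.add_apply]
    rw [add_comm u w]
    congr 2
    push_cast
    ring
  rw [intervalIntegral.integral_congr (g := fun u => Complex.exp (I * (θ * w : ℝ)) • g (u + w)) fun u _ => hg u]
  rw [intervalIntegral.integral_smul, intervalIntegral.integral_comp_add_right (f := g) w]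
  congr 1
  have hp : Function.Periodic g 1 := fun u => by
    simp only [g, W.add_apply, hper, one_apply_eq_self]
    congr 1
    rw [mul_add, mul_one, Complex.ofReal_add, mul_add, neg_add, Complex.exp_add,
      Complex.exp_neg (I * (θ : ℂ)), hθ, inv_one, mul_one]
  have := hp.intervalIntegral_add_eq w 0
  rw [zero_add] at this ⊢
  rwa [add_comm 1 w]

lemma norm_avg_sub (θ : ℝ) (y y₀ : K) {ε : ℝ}
    (h : ∀ u ∈ Set.Ioc (0 : ℝ) 1, ‖W.op u y - Complex.exp (I * (θ * u : ℝ)) • y₀‖ ≤ ε) :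
    ‖W.avg θ y - y₀‖ ≤ ε := by
  have hint := (W.continuous_avg_integrand θ y).intervalIntegrable (μ := volume) 0 1
  have e : W.avg θ y - y₀ = ∫ u in (0 : ℝ)..1, (Complex.exp (-(I * (θ * u : ℝ))) • W.op u y - y₀) := by
    rw [intervalIntegral.integral_sub hint intervalIntegrable_const]
    simp [avg]
  rw [e]
  refine (intervalIntegral.norm_integral_le_of_norm_le_const fun u hu => ?_).trans_eq
    (by norm_num : ε * |(1 : ℝ) - 0| = ε)
  rw [Set.uIoc_of_le zero_le_one] at hu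
  refine le_trans (le_of_eq ?_) (h u hu)
  rw [← one_mul ‖W.op u y - _‖, ← show ‖Complex.exp (-(I * (θ * u : ℝ)))‖ = 1 by
    rw [Complex.norm_exp]; simp, ← norm_smul, smul_sub, smul_smul, ← Complex.exp_add,
    neg_add_cancel, Complex.exp_zero, one_smul]

omit [CompleteSpace K] in
lemma avg_smul (θ : ℝ) (c : ℂ) (y : K) : W.avg θ (c • y) = c • W.avg θ y := by
  rw [avg, avg, ← intervalIntegral.integral_smul]
  refine intervalIntegral.integral_congr fun u _ => ?_
  show _ • W.op u (c • y) = c • _ • W.op u y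
  rw [map_smul, smul_comm]

lemma avg_comm (θ : ℝ) (y : K) (L : K →L[ℂ] K) (h : ∀ u, Commute (W.op u) L) :
    L (W.avg θ y) = W.avg θ (L y) := by
  rw [avg, ← L.intervalIntegral_comp_comm ((W.continuous_avg_integrand θ y).intervalIntegrable _ _)]
  refine intervalIntegral.integral_congr fun u _ => ?_
  show L (_ • W.op u y) = _ • W.op u (L y)
  rw [map_smul]
  congr 1
  exact (DFunLike.congr_fun (h u).eq y).symm

end UGroup

variable (U V : UGroup K) (hUV : ∀ s t, Commute (U.op s) (V.op t))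

/-- The one-parameter group along the vector (a, b). -/
def ugroupAlong (hUV : ∀ s t, Commute (U.op s) (V.op t)) (a b : ℝ) : UGroup K where
  op u := U.op (u * a) * V.op (u * b)
  zero := by simp [U.zero, V.zero]
  add s t := by
    rw [add_mul, add_mul, U.add, V.add, mul_assoc, ← mul_assoc (U.op (t * a)), (hUV _ _).eq]
    simp only [mul_assoc]
  norm_apply t v := by
    show ‖U.op (t * a) (V.op (t * b) v)‖ = ‖v‖
    rw [U.norm_apply, V.norm_apply]
  cont v := continuous_iff_continuousAt.2 fun t =>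
    U.tendsto_apply ((continuous_id.mul continuous_const).tendsto t)
      (((V.cont v).comp (continuous_id.mul continuous_const)).tendsto t)

include hUV in
/-- With two independent periods and approximate eigenvectors at (r, p) in an invariant set,
there is a nonzero exact eigenvector in that set. -/
theorem exists_eigen (D : Set K) (t₁ s₁ t₂ s₂ : ℝ) (hdet : t₁ * s₂ - t₂ * s₁ ≠ 0)
    (h₁ : U.op t₁ * V.op s₁ = 1) (h₂ : U.op t₂ * V.op s₂ = 1)
    (hD₁ : ∀ θ, ∀ y ∈ D, (ugroupAlong U V hUV t₁ s₁).avg θ y ∈ D)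
    (hD₂ : ∀ θ, ∀ y ∈ D, (ugroupAlong U V hUV t₂ s₂).avg θ y ∈ D)
    {r p : ℝ} (happ : ∀ η > (0 : ℝ), ∃ y ∈ D, y ≠ 0 ∧
      (∀ t : ℝ, ‖U.op t y - Complex.exp (I * (r * t : ℝ)) • y‖ ≤ η * |t| * ‖y‖) ∧
      ∀ s : ℝ, ‖V.op s y - Complex.exp (I * (p * s : ℝ)) • y‖ ≤ η * |s| * ‖y‖) :
    ∃ y ∈ D, y ≠ 0 ∧ ∀ t : ℝ, U.op t y = Complex.exp (I * (r * t : ℝ)) • y := by
  have hW : ∀ a b η (y : K), (∀ t : ℝ, ‖U.op t y - Complex.exp (I * (r * t : ℝ)) • y‖ ≤ η * |t| * ‖y‖) →
      (∀ s : ℝ, ‖V.op s y - Complex.exp (I * (p * s : ℝ)) • y‖ ≤ η * |s| * ‖y‖) → ∀ u : ℝ,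
      ‖(ugroupAlong U V hUV a b).op u y - Complex.exp (I * ((r * a + p * b) * u : ℝ)) • y‖
        ≤ η * (|a| + |b|) * |u| * ‖y‖ := by
    intro a b η y hU hV u
    show ‖U.op (u * a) (V.op (u * b) y) - _‖ ≤ _
    have e : U.op (u * a) (V.op (u * b) y) - Complex.exp (I * ((r * a + p * b) * u : ℝ)) • y
        = U.op (u * a) (V.op (u * b) y - Complex.exp (I * (p * (u * b) : ℝ)) • y)
          + Complex.exp (I * (p * (u * b) : ℝ))
            • (U.op (u * a) y - Complex.exp (I * (r * (u * a) : ℝ)) • y) := by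
      rw [map_sub, map_smul, smul_sub, smul_smul, ← Complex.exp_add]
      rw [show I * ((p * (u * b) : ℝ) : ℂ) + I * ((r * (u * a) : ℝ) : ℂ)
        = I * (((r * a + p * b) * u : ℝ) : ℂ) by push_cast; ring]
      abel
    rw [e]
    refine (norm_add_le _ _).trans ?_
    rw [U.norm_apply, norm_smul]
    rw [show ‖Complex.exp (I * (p * (u * b) : ℝ))‖ = 1 by rw [Complex.norm_exp]; simp, one_mul]
    refine (add_le_add (hV _) (hU _)).trans (le_of_eq ?_)
    rw [abs_mul, abs_mul]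
    ring
  have hθ : ∀ t s, U.op t * V.op s = 1 → Complex.exp (I * (r * t + p * s : ℝ)) = 1 := by
    intro t s hts
    by_contra hne
    set d := ‖(1 : ℂ) - Complex.exp (I * (r * t + p * s : ℝ))‖
    have hd : 0 < d := norm_pos_iff.2 (sub_ne_zero.2 (Ne.symm hne))
    obtain ⟨y, -, hy0, hy1, hy2⟩ := happ (d / (2 * (|t| + |s| + 1))) (by positivity)
    have h := hW t s _ y hy1 hy2 1
    have e : (ugroupAlong U V hUV t s).op 1 y = y := by
      show (U.op (1 * t) * V.op (1 * s)) y = y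
      rw [one_mul, one_mul, hts, one_apply_eq_self]
    rw [e, mul_one] at h
    nth_rw 1 [show y = (1 : ℂ) • y from (one_smul _ y).symm] at h
    rw [← sub_smul, norm_smul, abs_one, mul_one] at h
    have h' := le_of_mul_le_mul_right h (norm_pos_iff.2 hy0)
    rw [div_mul_eq_mul_div, le_div_iff₀ (by positivity)] at h'
    nlinarith [abs_nonneg t, abs_nonneg s]
  set W₁ := ugroupAlong U V hUV t₁ s₁
  set W₂ := ugroupAlong U V hUV t₂ s₂
  set θ₁ := r * t₁ + p * s₁
  set θ₂ := r * t₂ + p * s₂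
  have hper₁ : W₁.op 1 = 1 := by show U.op (1 * t₁) * V.op (1 * s₁) = 1; simp [h₁]
  have hper₂ : W₂.op 1 = 1 := by show U.op (1 * t₂) * V.op (1 * s₂) = 1; simp [h₂]
  have hcomm : ∀ u w, Commute (W₂.op u) (W₁.op w) := fun u w =>
    (((U.op_comm _ _).mul_right (hUV _ _)).mul_left (((hUV _ _).symm).mul_right (V.op_comm _ _)))
  set M := |t₁| + |s₁| + |t₂| + |s₂|
  obtain ⟨y, hyD, hy0, hy1, hy2⟩ := happ (1 / (4 * (M + 1))) (by positivity)
  set η := 1 / (4 * (M + 1))
  have hη : η * M ≤ 1 / 4 := by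
    simp only [η]; rw [div_mul_eq_mul_div, one_mul, div_le_div_iff₀ (by positivity) (by norm_num)]
    linarith
  have hy : 0 < ‖y‖ := norm_pos_iff.2 hy0
  have hb : ∀ t s, |t| + |s| ≤ M → ∀ u ∈ Set.Ioc (0 : ℝ) 1,
      ‖(ugroupAlong U V hUV t s).op u y - Complex.exp (I * ((r * t + p * s) * u : ℝ)) • y‖
        ≤ ‖y‖ / 4 := by
    intro t s hM u hu
    refine (hW t s η y hy1 hy2 u).trans ?_
    rw [abs_of_pos hu.1]
    have : η * (|t| + |s|) * u ≤ η * M * 1 :=
      mul_le_mul (mul_le_mul_of_nonneg_left hM (by positivity)) hu.2 hu.1.le (by positivity)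
    nlinarith
  set y₁ := W₁.avg θ₁ y
  set y₂ := W₂.avg θ₂ y₁
  have hd1 : ‖y₁ - y‖ ≤ ‖y‖ / 4 :=
    W₁.norm_avg_sub θ₁ y y (hb t₁ s₁ (by simp only [M]; linarith [abs_nonneg t₂, abs_nonneg s₂]))
  have hd2 : ‖y₂ - y‖ ≤ ‖y‖ / 2 := by
    refine W₂.norm_avg_sub θ₂ y₁ y fun u hu => ?_
    have := hb t₂ s₂ (by simp only [M]; linarith [abs_nonneg t₁, abs_nonneg s₁]) u hu
    refine (norm_sub_le_norm_sub_add_norm_sub _ (W₂.op u y) _).trans ((add_le_add ?_ this).trans
      (by linarith : ‖y‖ / 4 + ‖y‖ / 4 ≤ ‖y‖ / 2))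
    rw [← map_sub, W₂.norm_apply]
    exact hd1
  have hne : y₂ ≠ 0 := fun h0 => by rw [h0, zero_sub, norm_neg] at hd2; linarith
  refine ⟨y₂, hD₂ _ _ (hD₁ _ _ hyD), hne, fun t => ?_⟩
  have e1 : ∀ w, W₁.op w y₂ = Complex.exp (I * (θ₁ * w : ℝ)) • y₂ := fun w => by
    simp only [y₂]
    rw [W₂.avg_comm θ₂ y₁ (W₁.op w) fun u => hcomm u w,
      W₁.op_avg θ₁ w y hper₁ (hθ t₁ s₁ h₁)]
    exact W₂.avg_smul θ₂ _ _
  have e2 : ∀ w, W₂.op w y₂ = Complex.exp (I * (θ₂ * w : ℝ)) • y₂ := fun w =>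
    W₂.op_avg θ₂ w y₁ hper₂ (hθ t₂ s₂ h₂)
  set D' := t₁ * s₂ - t₂ * s₁ with hD'
  have hcomb : U.op t = W₁.op (t * s₂ / D') * W₂.op (-(t * s₁ / D')) := by
    show U.op t = (U.op _ * V.op _) * (U.op _ * V.op _)
    rw [mul_assoc, ← mul_assoc (V.op _), ← (hUV _ _).eq, mul_assoc (U.op (_ * t₂)), ← mul_assoc,
      ← U.add, ← V.add]
    rw [show t * s₂ / D' * s₁ + -(t * s₁ / D') * s₂ = 0 by ring, V.zero, mul_one]
    congr 1
    rw [neg_mul, div_mul_eq_mul_div, div_mul_eq_mul_div, ← sub_eq_add_neg, ← sub_div,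
      eq_div_iff hdet]
    ring
  rw [hcomb, mul_apply_eq_comp, e2, map_smul, e1, smul_smul, ← Complex.exp_add]
  congr 2
  rw [← mul_add, ← Complex.ofReal_add]
  congr 2
  simp only [θ₁, θ₂]
  field_simp
  rw [hD']
  ring

end P132.Endgame
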