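import Vale.Agent.P132.Setup
import Vale.Agent.P132.Endgame.Periods

/-!
# P132 endgame: the Hilbert space of the bicentralizer and its two unitary groups
-/

noncomputable section

namespace P132.Endgame

open Filter Topology Complex MeasureTheory
open scoped InnerProductSpace

variable {H : Type*} [NormedAddCommGroup H] [InnerProductSpace ℂ H] [CompleteSpace H]

lemma commutant_comm {M : VonNeumannAlgebra H} {g x : H →L[ℂ] H} (hg : g ∈ M.commutant)
    (hx : x ∈ M) (v : H) : g (x v) = x (g v) :=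
  (DFunLike.congr_fun (VonNeumannAlgebra.mem_commutant_iff.1 hg x hx) v).symm

variable {S : Std H} {D : Modular S} (hb : BFacts D) (F : Flow D)

/-- The bicentralizer as a subspace. -/
def Bop : Submodule ℂ (H →L[ℂ] H) where
  carrier := S.B
  zero_mem' := by simpa using hb.smul 0 1 hb.one
  add_mem' ha hc := hb.add _ ha _ hc
  smul_mem' c _ hx := hb.smul c _ hx

/-- `x ↦ x Ω`. -/
def evalΩ : Bop hb →ₗ[ℂ] H :=
  (ContinuousLinearMap.apply ℂ H S.Ω).toLinearMap.comp (Bop hb).subtype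

lemma evalΩ_apply (x : Bop hb) : evalΩ hb x = (x : H →L[ℂ] H) S.Ω := rfl

/-- The closure of `B Ω`. -/
abbrev HB : Submodule ℂ H := (LinearMap.range (evalΩ hb)).topologicalClosure

instance : CompleteSpace (HB hb) :=
  (LinearMap.range (evalΩ hb)).isClosed_topologicalClosure.completeSpace_coe

/-- `x ↦ x Ω` into `HB`. -/
def toHB : Bop hb →ₗ[ℂ] HB hb :=
  (evalΩ hb).codRestrict _ fun x => Submodule.le_topologicalClosure _ ⟨x, rfl⟩

lemma toHB_coe (x : Bop hb) : (toHB hb x : H) = (x : H →L[ℂ] H) S.Ω := rfl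

lemma denseRange_toHB : DenseRange (toHB hb) := by
  intro k
  rw [closure_subtype, ← Set.range_comp]
  have e : ((fun v : HB hb => (v : H)) ∘ toHB hb) = evalΩ hb := rfl
  rw [e]
  have := k.2
  rwa [← SetLike.mem_coe, Submodule.topologicalClosure_coe, LinearMap.coe_range] at this

lemma σ_apply_Ω (t : ℝ) (x : H →L[ℂ] H) : D.σ t x S.Ω = D.U t (x S.Ω) := by
  show D.U t (x (D.U (-t) S.Ω)) = _
  rw [D.U_Ω]

lemma U_norm (t : ℝ) (v : H) : ‖D.U t v‖ = ‖v‖ := by
  have h : star (D.U t) * D.U t = 1 := by rw [D.U_star, ← D.U_add, neg_add_cancel, D.U_zero]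
  rw [ContinuousLinearMap.star_eq_adjoint] at h
  exact (ContinuousLinearMap.norm_map_iff_adjoint_comp_self _).2 h v

/-- The modular group on `H`. -/
def gU : UGroup H where
  op := D.U
  zero := D.U_zero
  add := D.U_add
  norm_apply := U_norm
  cont := D.U_cont

lemma U_mapsTo (t : ℝ) : ∀ v ∈ HB hb, D.U t v ∈ HB hb := by
  intro v hv
  rw [← SetLike.mem_coe, Submodule.topologicalClosure_coe] at hv ⊢
  refine map_mem_closure (D.U t).continuous hv ?_
  rintro _ ⟨x, rfl⟩
  exact ⟨⟨D.σ t x, hb.σ_mem t _ x.2⟩, σ_apply_Ω t _⟩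

/-- The modular group on `HB`. -/
def UK : UGroup (HB hb) where
  op t := ((D.U t).comp (HB hb).subtypeL).codRestrict _ fun v => U_mapsTo hb t v v.2
  zero := by
    ext v
    show D.U 0 v = v
    rw [D.U_zero]; rfl
  add s t := by
    ext v
    show D.U (s + t) v = D.U s (D.U t v)
    rw [D.U_add]; rfl
  norm_apply t v := U_norm (D := D) t (v : H)
  cont v := continuous_induced_rng.2 (D.U_cont v)

/-- `β s` into `HB`. -/
def betaLin (s : ℝ) : Bop hb →ₗ[ℂ] HB hb where
  toFun x := toHB hb ⟨F.β s x, F.mem s _ x.2⟩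
  map_add' x y := by
    ext
    show F.β s ((x : H →L[ℂ] H) + y) S.Ω = F.β s x S.Ω + F.β s y S.Ω
    rw [F.map_add s _ x.2 _ y.2]; rfl
  map_smul' c x := by
    ext
    show F.β s (c • (x : H →L[ℂ] H)) S.Ω = c • F.β s x S.Ω
    rw [F.map_smul s c _ x.2]; rfl

include hb in
lemma norm_beta_Ω (s : ℝ) {x : H →L[ℂ] H} (hx : x ∈ S.B) : ‖F.β s x S.Ω‖ = ‖x S.Ω‖ := by
  have e : ∀ T : H →L[ℂ] H, S.φ (star T * T) = ((‖T S.Ω‖ ^ 2 : ℝ) : ℂ) := by
    intro T
    rw [Std.φ, ContinuousLinearMap.star_eq_adjoint, mul_apply_eq_comp,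
      ContinuousLinearMap.adjoint_inner_right, inner_self_eq_norm_sq_to_K]
    simp
  have h := F.preserves s _ (hb.mul _ (hb.star_mem x hx) _ hx)
  rw [F.map_mul s _ (hb.star_mem x hx) _ hx, F.map_star s _ hx, e, e, Complex.ofReal_inj] at h
  exact (pow_left_inj₀ (norm_nonneg _) (norm_nonneg _) two_ne_zero).1 h

/-- `β s` extended to `HB`. -/
def Vop (s : ℝ) : HB hb →L[ℂ] HB hb := (betaLin hb F s).extendOfNorm (toHB hb)

lemma Vop_toHB (s : ℝ) (x : Bop hb) : Vop hb F s (toHB hb x) = betaLin hb F s x :=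
  LinearMap.extendOfNorm_eq (denseRange_toHB hb)
    ⟨1, fun y => le_of_eq (by rw [one_mul]; exact norm_beta_Ω hb F s y.2)⟩ x

lemma Vop_norm (s : ℝ) (k : HB hb) : ‖Vop hb F s k‖ = ‖k‖ :=
  (denseRange_toHB hb).induction_on k
    (isClosed_eq (Vop hb F s).continuous.norm continuous_norm)
    fun x => by rw [Vop_toHB]; exact norm_beta_Ω hb F s x.2

lemma Vop_coe (s : ℝ) {x : H →L[ℂ] H} (hx : x ∈ S.B) :
    (Vop hb F s (toHB hb ⟨x, hx⟩) : H) = F.β s x S.Ω := by
  rw [Vop_toHB]; rfl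

/-- The flow on `HB`. -/
def VK : UGroup (HB hb) where
  op := Vop hb F
  zero := ContinuousLinearMap.ext fun k =>
    (denseRange_toHB hb).induction_on k (isClosed_eq (Vop hb F 0).continuous continuous_id) fun x =>
      Subtype.ext (by
        refine (Vop_coe hb F 0 x.2).trans ?_
        rw [F.zero _ x.2]; rfl)
  add s t := ContinuousLinearMap.ext fun k =>
    (denseRange_toHB hb).induction_on k
      (isClosed_eq (Vop hb F (s + t)).continuous ((Vop hb F s).comp (Vop hb F t)).continuous)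
      fun x => by
        show Vop hb F (s + t) _ = Vop hb F s (Vop hb F t _)
        rw [Vop_toHB, Vop_toHB]
        refine Subtype.ext ?_
        show F.β (s + t) x S.Ω = _
        refine Eq.trans ?_ (Vop_coe hb F s (F.mem t _ x.2)).symm
        rw [F.add s t _ x.2]
  norm_apply := Vop_norm hb F
  cont k := by
    rw [continuous_iff_continuousAt]
    intro s₀
    rw [Metric.continuousAt_iff']
    intro ε hε
    obtain ⟨x, hx⟩ := Metric.denseRange_iff.1 (denseRange_toHB hb) k (ε / 3) (by positivity)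
    have hc : Continuous fun s => Vop hb F s (toHB hb x) := by
      refine continuous_induced_rng.2 ?_
      refine (F.cont _ x.2).congr fun s => ?_
      exact (Vop_coe hb F s x.2).symm
    filter_upwards [Metric.continuousAt_iff'.1 (hc.continuousAt (x := s₀)) (ε / 3) (by positivity)]
      with s hs
    have hiso : ∀ u, dist (Vop hb F u k) (Vop hb F u (toHB hb x)) = dist k (toHB hb x) := fun u => by
      rw [dist_eq_norm, ← map_sub, Vop_norm, dist_eq_norm]
    have := dist_triangle4 (Vop hb F s k) (Vop hb F s (toHB hb x)) (Vop hb F s₀ (toHB hb x))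
      (Vop hb F s₀ k)
    rw [hiso, dist_comm (Vop hb F s₀ (toHB hb x)), hiso] at this
    linarith

lemma UK_toHB (t : ℝ) (x : Bop hb) :
    (UK hb).op t (toHB hb x) = toHB hb ⟨D.σ t x, hb.σ_mem t _ x.2⟩ :=
  Subtype.ext (σ_apply_Ω (D := D) t (x : H →L[ℂ] H)).symm

lemma UK_VK_comm (t s : ℝ) : Commute ((UK hb).op t) ((VK hb F).op s) :=
  ContinuousLinearMap.ext fun k => (denseRange_toHB hb).induction_on k
    (isClosed_eq (((UK hb).op t).comp ((VK hb F).op s)).continuous
      (((VK hb F).op s).comp ((UK hb).op t)).continuous) fun x => by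
    show (UK hb).op t (Vop hb F s _) = Vop hb F s ((UK hb).op t _)
    rw [Vop_toHB, UK_toHB, Vop_toHB]
    show (UK hb).op t (toHB hb ⟨F.β s x, _⟩) = _
    rw [UK_toHB]
    refine Subtype.ext ?_
    show D.σ t (F.β s x) S.Ω = F.β s (D.σ t x) S.Ω
    rw [F.comm_σ s t _ x.2]

/-- `σ_t x` is strongly continuous in `t`. -/
lemma σ_cont (x : H →L[ℂ] H) (v : H) : Continuous fun t => D.σ t x v := by
  rw [continuous_iff_continuousAt]
  exact fun t₀ => (gU (D := D)).tendsto_apply tendsto_id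
    ((x.continuous.tendsto _).comp (((D.U_cont v).comp continuous_neg).tendsto t₀))

lemma σ_norm_le (t : ℝ) (x : H →L[ℂ] H) : ‖D.σ t x‖ ≤ ‖x‖ := by
  refine ContinuousLinearMap.opNorm_le_bound _ (norm_nonneg _) fun v => ?_
  show ‖D.U t (x (D.U (-t) v))‖ ≤ _
  rw [U_norm]
  exact (x.le_opNorm _).trans (by rw [U_norm])

include hb in
/-- `β_s x` is strongly continuous in `s`. -/
lemma β_cont {x : H →L[ℂ] H} (hx : x ∈ S.B) (v : H) : Continuous fun s => F.β s x v := by
  rw [continuous_iff_continuousAt]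
  intro s₀
  rw [Metric.continuousAt_iff']
  intro ε hε
  have hdense : DenseRange fun y : S.M => D.J ((y : H →L[ℂ] H) S.Ω) := by
    have h1 : DenseRange fun y : S.M => (y : H →L[ℂ] H) S.Ω := by
      refine Dense.mono ?_ S.cyclic
      rintro w ⟨y, hy, rfl⟩
      exact ⟨⟨y, hy⟩, rfl⟩
    exact D.J.surjective.denseRange.comp h1 D.J.continuous
  set δ := ε / (3 * (‖x‖ + 1))
  obtain ⟨y, hy⟩ := Metric.denseRange_iff.1 hdense v δ (by positivity)
  have hc : Continuous fun s => F.β s x (D.J ((y : H →L[ℂ] H) S.Ω)) := by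
    have e : ∀ s, F.β s x (D.J ((y : H →L[ℂ] H) S.Ω))
        = D.J ((y : H →L[ℂ] H) (D.J (F.β s x S.Ω))) := fun s => by
      have := D.J_commutant _ (hb.subset (F.mem s x hx)) _ y.2 S.Ω
      rwa [D.J_Ω] at this
    simp only [e]
    exact D.J.continuous.comp ((y : H →L[ℂ] H).continuous.comp
      (D.J.continuous.comp (F.cont x hx)))
  filter_upwards [Metric.continuousAt_iff'.1 (hc.continuousAt (x := s₀)) (ε / 3) (by positivity)]
    with s hs
  have hlip : ∀ u, dist (F.β u x v) (F.β u x (D.J ((y : H →L[ℂ] H) S.Ω))) ≤ ε / 3 := by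
    intro u
    rw [dist_eq_norm, ← map_sub]
    refine (ContinuousLinearMap.le_opNorm _ _).trans ?_
    rw [← dist_eq_norm]
    refine (mul_le_mul (F.norm_le u x hx) hy.le dist_nonneg (norm_nonneg _)).trans ?_
    simp only [δ]
    rw [mul_div_assoc', div_le_div_iff₀ (by positivity) (by norm_num)]
    nlinarith [norm_nonneg x]
  have := dist_triangle4 (F.β s x v) (F.β s x (D.J ((y : H →L[ℂ] H) S.Ω)))
    (F.β s₀ x (D.J ((y : H →L[ℂ] H) S.Ω))) (F.β s₀ x v)
  have h2 := hlip s₀
  rw [dist_comm] at h2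
  linarith [hlip s]

include hb in
/-- Strong integrals of elements of `B` stay in `B`. -/
lemma exists_integral (μ : Measure ℝ) (g : ℝ → ℂ) (hg : Integrable g μ) (f : ℝ → H →L[ℂ] H)
    (hf : ∀ t, f t ∈ S.B) (C : ℝ) (hC : ∀ t, ‖f t‖ ≤ C) (hcont : ∀ v, Continuous fun t => f t v) :
    ∃ a ∈ S.B, ∀ v, a v = ∫ t, g t • f t v ∂μ := by
  have hint : ∀ v, Integrable (fun t => g t • f t v) μ := fun v =>
    hg.smul_bdd (C := C * ‖v‖) (hcont v).aestronglyMeasurable
      (ae_of_all _ fun t => (f t).le_of_opNorm_le (hC t) v)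
  let a : H →L[ℂ] H := LinearMap.mkContinuous
    { toFun := fun v => ∫ t, g t • f t v ∂μ
      map_add' := fun v w => by
        simp only [map_add, smul_add]; exact integral_add (hint v) (hint w)
      map_smul' := fun c v => by
        simp only [map_smul, RingHom.id_apply]
        rw [← integral_smul]
        exact integral_congr_ae (ae_of_all _ fun t => smul_comm _ _ _) }
    ((∫ t, ‖g t‖ ∂μ) * C) fun v => by
      refine (norm_integral_le_integral_norm _).trans ?_
      rw [← integral_mul_const, ← integral_mul_const]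
      refine integral_mono_of_nonneg (ae_of_all _ fun t => norm_nonneg _) ?_
        (ae_of_all _ fun t => ?_)
      · exact (hg.norm.mul_const _).mul_const _
      · show ‖g t • f t v‖ ≤ ‖g t‖ * C * ‖v‖
        rw [norm_smul, mul_assoc]
        exact mul_le_mul_of_nonneg_left ((f t).le_of_opNorm_le (hC t) v) (norm_nonneg _)
  have happ : ∀ v, a v = ∫ t, g t • f t v ∂μ := fun v => rfl
  have haM : a ∈ S.M := by
    rw [← VonNeumannAlgebra.commutant_commutant S.M, VonNeumannAlgebra.mem_commutant_iff]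
    intro z hz
    refine ContinuousLinearMap.ext fun v => ?_
    show z (a v) = a (z v)
    rw [happ, happ, ← z.integral_comp_comm (hint v)]
    refine integral_congr_ae (ae_of_all _ fun t => ?_)
    show z (g t • f t v) = g t • f t (z v)
    rw [map_smul, commutant_comm hz (hb.subset (hf t)) v]
  have hmem : a S.Ω ∈ HB hb := by
    have hc : Continuous fun t => toHB hb ⟨f t, hf t⟩ := continuous_induced_rng.2 (hcont S.Ω)
    have hi : Integrable (fun t => g t • toHB hb ⟨f t, hf t⟩) μ :=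
      hg.smul_bdd (C := C * ‖S.Ω‖) hc.aestronglyMeasurable
        (ae_of_all _ fun t => (f t).le_of_opNorm_le (hC t) _)
    rw [happ, show (∫ t, g t • f t S.Ω ∂μ) = (HB hb).subtypeL (∫ t, g t • toHB hb ⟨f t, hf t⟩ ∂μ)
      by rw [← ContinuousLinearMap.integral_comp_comm _ hi]; rfl]
    exact Submodule.coe_mem _
  refine ⟨a, hb.sot_closed a haM fun ε hε => ?_, happ⟩
  rw [← SetLike.mem_coe, Submodule.topologicalClosure_coe] at hmem
  obtain ⟨_, ⟨x, rfl⟩, hx⟩ := Metric.mem_closure_iff.1 hmem ε hε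
  refine ⟨x, x.2, ?_⟩
  rw [sub_apply]
  rw [dist_eq_norm, evalΩ_apply] at hx
  exact hx.le

/-- The vectors `x Ω`, `x ∈ B`. -/
def core : Set (HB hb) := Set.range (toHB hb)

lemma dense_core : Dense (core hb) := denseRange_toHB hb

lemma UK_res_mem : ∀ y ∈ core hb, (UK hb).res y ∈ core hb := by
  rintro _ ⟨x, rfl⟩
  obtain ⟨a, ha, ha'⟩ := exists_integral hb (volume.restrict (Set.Ioi 0))
    (fun t => (Real.exp (-t) : ℂ)) ((integrableOn_exp_neg_Ioi 0).ofReal) (fun t => D.σ t x)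
    (fun t => hb.σ_mem t _ x.2) ‖(x : H →L[ℂ] H)‖ (fun t => σ_norm_le t _) (σ_cont _)
  refine ⟨⟨a, ha⟩, Subtype.ext ?_⟩
  show a S.Ω = (HB hb).subtypeL ((UK hb).res _)
  rw [ha', UGroup.res_apply, ← ContinuousLinearMap.integral_comp_comm _
    ((UK hb).integrableOn_weight _ 0)]
  refine integral_congr_ae (ae_of_all _ fun t => ?_)
  show (Real.exp (-t) : ℂ) • D.σ t x S.Ω = Real.exp (-t) • D.U t ((x : H →L[ℂ] H) S.Ω)
  rw [σ_apply_Ω, Complex.coe_smul]

lemma VK_res_mem : ∀ y ∈ core hb, (VK hb F).res y ∈ core hb := by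
  rintro _ ⟨x, rfl⟩
  obtain ⟨a, ha, ha'⟩ := exists_integral hb (volume.restrict (Set.Ioi 0))
    (fun t => (Real.exp (-t) : ℂ)) ((integrableOn_exp_neg_Ioi 0).ofReal) (fun t => F.β t x)
    (fun t => F.mem t _ x.2) ‖(x : H →L[ℂ] H)‖ (fun t => F.norm_le t _ x.2)
    (fun v => β_cont hb F x.2 v)
  refine ⟨⟨a, ha⟩, Subtype.ext ?_⟩
  show a S.Ω = (HB hb).subtypeL ((VK hb F).res _)
  rw [ha', UGroup.res_apply, ← ContinuousLinearMap.integral_comp_comm _
    ((VK hb F).integrableOn_weight _ 0)]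
  refine integral_congr_ae (ae_of_all _ fun t => ?_)
  show (Real.exp (-t) : ℂ) • F.β t x S.Ω = Real.exp (-t) • (Vop hb F t (toHB hb x) : H)
  rw [Vop_coe hb F t x.2, Complex.coe_smul]

lemma avg_mem (t₀ s₀ θ : ℝ) : ∀ y ∈ core hb,
    (ugroupAlong (UK hb) (VK hb F) (UK_VK_comm hb F) t₀ s₀).avg θ y ∈ core hb := by
  rintro _ ⟨x, rfl⟩
  set W := ugroupAlong (UK hb) (VK hb F) (UK_VK_comm hb F) t₀ s₀
  obtain ⟨a, ha, ha'⟩ := exists_integral hb (volume.restrict (Set.Ioc (0 : ℝ) 1))
    (fun u => Complex.exp (-(I * (θ * u : ℝ))))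
    ((Continuous.integrableOn_Ioc (by fun_prop)))
    (fun u => D.σ (u * t₀) (F.β (u * s₀) x))
    (fun u => hb.σ_mem _ _ (F.mem _ _ x.2)) ‖(x : H →L[ℂ] H)‖
    (fun u => (σ_norm_le _ _).trans (F.norm_le _ _ x.2))
    (fun v => continuous_iff_continuousAt.2 fun u₀ => by
      refine (gU (D := D)).tendsto_apply ((continuous_id.mul continuous_const).tendsto u₀) ?_
      show Tendsto (fun u => F.β (u * s₀) (x : H →L[ℂ] H) (D.U (-(u * t₀)) v)) _ _
      refine tendsto_iff_norm_sub_tendsto_zero.2 (squeeze_zero (fun _ => norm_nonneg _)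
        (g := fun u => ‖(x : H →L[ℂ] H)‖ * ‖D.U (-(u * t₀)) v - D.U (-(u₀ * t₀)) v‖
          + ‖F.β (u * s₀) x (D.U (-(u₀ * t₀)) v) - F.β (u₀ * s₀) x (D.U (-(u₀ * t₀)) v)‖)
        (fun u => ?_) ?_)
      · refine (norm_sub_le_norm_sub_add_norm_sub _ (F.β (u * s₀) x (D.U (-(u₀ * t₀)) v)) _).trans
          (add_le_add ?_ le_rfl)
        rw [← map_sub]
        exact (ContinuousLinearMap.le_of_opNorm_le _ (F.norm_le _ _ x.2) _)
      · have c1 : Continuous fun u => D.U (-(u * t₀)) v :=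
          (D.U_cont v).comp (by fun_prop)
        have c2 : Continuous fun u => F.β (u * s₀) x (D.U (-(u₀ * t₀)) v) :=
          (β_cont hb F x.2 _).comp (by fun_prop)
        have := ((((c1.sub (continuous_const (y := D.U (-(u₀ * t₀)) v))).norm).const_mul
          ‖(x : H →L[ℂ] H)‖).add ((c2.sub (continuous_const
            (y := F.β (u₀ * s₀) x (D.U (-(u₀ * t₀)) v)))).norm)).tendsto u₀
        simpa [Pi.add_def] using this)
  refine ⟨⟨a, ha⟩, Subtype.ext ?_⟩
  show a S.Ω = (HB hb).subtypeL (W.avg θ _)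
  rw [ha', UGroup.avg, intervalIntegral.integral_of_le zero_le_one,
    ← ContinuousLinearMap.integral_comp_comm _
      (W.continuous_avg_integrand θ _).integrableOn_Ioc]
  refine integral_congr_ae (ae_of_all _ fun u => ?_)
  show _ • D.σ (u * t₀) (F.β (u * s₀) x) S.Ω
    = (HB hb).subtypeL (_ • (UK hb).op (u * t₀) (Vop hb F (u * s₀) (toHB hb x)))
  rw [map_smul, σ_apply_Ω]
  congr 1
  show D.U _ (F.β (u * s₀) (x : H →L[ℂ] H) S.Ω) = D.U _ (Vop hb F (u * s₀) (toHB hb x) : H)
  rw [Vop_coe hb F _ x.2]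

end P132.Endgame
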