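import Vale.Agent.P132.Endgame.Resolvent

/-!
# P132 endgame: joint approximate eigenvectors of two commuting unitary groups, by Gelfand theory
-/

noncomputable section

namespace P132.Endgame

open Filter Topology Complex WeakDual
open scoped InnerProductSpace ComplexConjugate

variable {K : Type*} [NormedAddCommGroup K] [InnerProductSpace ℂ K] [CompleteSpace K]

/-- A self-adjoint operator which is bounded below as a form is invertible. -/
lemma isUnit_of_coercive {P : K →L[ℂ] K} (hP : star P = P) {c : ℝ} (hc : 0 < c)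
    (h : ∀ v, c * ‖v‖ ^ 2 ≤ (⟪P v, v⟫_ℂ).re) : IsUnit P := by
  have hb : ∀ v, ‖v‖ ≤ c⁻¹ * ‖P v‖ := by
    intro v
    rcases eq_or_ne v 0 with rfl | hv
    · simp
    have h1 : c * ‖v‖ ^ 2 ≤ ‖P v‖ * ‖v‖ :=
      (h v).trans ((Complex.re_le_norm _).trans (norm_inner_le_norm _ _))
    rw [pow_two, ← mul_assoc] at h1
    rw [le_inv_mul_iff₀ hc]
    exact le_of_mul_le_mul_right h1 (norm_pos_iff.2 hv)
  have hanti : AntilipschitzWith ⟨c⁻¹, by positivity⟩ P :=
    P.antilipschitz_of_bound fun v => hb v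
  have hclosed : IsClosed (LinearMap.range (P : K →ₗ[ℂ] K) : Set K) := by
    have := hanti.isClosed_range P.uniformContinuous
    convert this using 1
    exact LinearMap.coe_range _
  rw [ContinuousLinearMap.isUnit_iff_bijective]
  refine ⟨hanti.injective, LinearMap.range_eq_top.1 ?_⟩
  have := hclosed.completeSpace_coe
  rw [← Submodule.orthogonal_eq_bot_iff, Submodule.eq_bot_iff]
  intro w hw
  have hPw : P w = 0 := by
    refine ext_inner_right ℂ fun v => ?_
    rw [inner_zero_left, ← hP, ContinuousLinearMap.star_eq_adjoint,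
      ContinuousLinearMap.adjoint_inner_left]
    exact Submodule.inner_left_of_mem_orthogonal (LinearMap.mem_range_self _ v) hw
  exact hanti.injective (by simpa using hPw)

lemma norm_res_le (U : UGroup K) (v : K) : ‖U.res v‖ ≤ ‖v‖ := by
  have h := U.inner_res_self v
  have h1 : (⟪U.res v, v⟫_ℂ).re ≤ ‖U.res v‖ * ‖v‖ :=
    (Complex.re_le_norm _).trans (norm_inner_le_norm _ _)
  have h2 : (⟪v, U.res v⟫_ℂ).re ≤ ‖v‖ * ‖U.res v‖ :=
    (Complex.re_le_norm _).trans (norm_inner_le_norm _ _)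
  nlinarith [norm_nonneg (U.res v), norm_nonneg v]

lemma exists_re_param {κ : ℂ} (h : conj (2 * κ - 1) * (2 * κ - 1) = 1) (h0 : κ ≠ 0) :
    ∃ r : ℝ, (1 - I * r) * κ = 1 := by
  refine ⟨-(κ⁻¹).im, ?_⟩
  have h1 : (κ⁻¹).re = 1 := by
    have := congrArg Complex.re h
    simp [Complex.mul_re] at this
    rw [Complex.inv_re, div_eq_one_iff_eq (Complex.normSq_pos.2 h0).ne', Complex.normSq_apply]
    nlinarith
  have : 1 - I * ((-(κ⁻¹).im : ℝ) : ℂ) = κ⁻¹ := by
    apply Complex.ext <;> simp [h1]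
  rw [this, inv_mul_cancel₀ h0]

variable (U V : UGroup K) (hUV : ∀ s t, Commute (U.op s) (V.op t))

lemma comm_res_op (hUV : ∀ s t, Commute (U.op s) (V.op t)) (t : ℝ) :
    Commute U.res (V.op t) :=
  U.res_comm fun s => hUV s t

lemma comm_res_res (hUV : ∀ s t, Commute (U.op s) (V.op t)) : Commute U.res V.res :=
  (V.res_comm fun t => (comm_res_op U V hUV t).symm).symm

include hUV in
/-- If `h ↦ U (a h) V (b h)` is not trivial there is a joint spectral point off `a r + b p = 0`. -/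
theorem exists_joint (a b : ℝ) (hne : ∃ h v, U.op (a * h) (V.op (b * h) v) ≠ v) :
    ∃ r p : ℝ, a * r + b * p ≠ 0 ∧ ∀ ε > (0 : ℝ), ∃ v : K, ‖v‖ = 1 ∧
      ‖(1 - I * r) • U.res v - v‖ ≤ ε ∧ ‖(1 - I * p) • V.res v - v‖ ≤ ε := by
  set R := U.res with hR
  set S := V.res with hS
  have hRR : Commute R (star R) := by
    rw [hR, U.star_res]; exact comm_res_res U U.inv fun s t => U.op_comm s (-t)
  have hSS : Commute S (star S) := by
    rw [hS, V.star_res]; exact comm_res_res V V.inv fun s t => V.op_comm s (-t)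
  have hRS : Commute R S := comm_res_res U V hUV
  have hRS' : Commute R (star S) := by
    rw [hS, V.star_res]; exact comm_res_res U V.inv fun s t => hUV s (-t)
  have hSR' : Commute S (star R) := by
    rw [hR, U.star_res]; exact comm_res_res V U.inv fun s t => (hUV (-t) s).symm
  let C1 : StarSubalgebra ℂ (K →L[ℂ] K) := StarSubalgebra.centralizer ℂ {R, S}
  let A : StarSubalgebra ℂ (K →L[ℂ] K) := StarSubalgebra.centralizer ℂ (C1 : Set (K →L[ℂ] K))
  have hin : {R, S} ⊆ (C1 : Set (K →L[ℂ] K)) := by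
    intro x hx
    rw [SetLike.mem_coe, StarSubalgebra.mem_centralizer_iff]
    rcases hx with rfl | rfl <;> intro g hg <;> rcases hg with rfl | rfl
    · exact ⟨rfl, hRR.symm.eq⟩
    · exact ⟨hRS.symm.eq, hRS'.symm.eq⟩
    · exact ⟨hRS.eq, hSR'.symm.eq⟩
    · exact ⟨rfl, hSS.symm.eq⟩
  have hAC : A ≤ C1 := StarSubalgebra.centralizer_le ℂ _ _ hin
  have hmemA : ∀ x ∈ ({R, S} : Set (K →L[ℂ] K)), x ∈ A := by
    intro x hx
    rw [StarSubalgebra.mem_centralizer_iff]
    intro g hg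
    have h1 := (StarSubalgebra.mem_centralizer_iff ℂ).1 hg x hx
    have h2 := (StarSubalgebra.mem_centralizer_iff ℂ).1 (star_mem hg) x hx
    exact ⟨h1.1.symm, h2.1.symm⟩
  have : IsClosed (A : Set (K →L[ℂ] K)) := by
    rw [StarSubalgebra.coe_centralizer]; exact Set.isClosed_centralizer _
  let _ : CommCStarAlgebra A :=
    { (inferInstance : CStarAlgebra A) with
      mul_comm := fun x y => Subtype.ext
        (((StarSubalgebra.mem_centralizer_iff ℂ).1 y.2 x.1 (hAC x.2)).1) }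
  let R₀ : A := ⟨R, hmemA R (Or.inl rfl)⟩
  let S₀ : A := ⟨S, hmemA S (Or.inr rfl)⟩
  let Z : A := ((a : ℂ) • ((R₀ - 1) * S₀) + (b : ℂ) • (R₀ * (S₀ - 1))) * (R₀ * S₀)
  have hcayR : star (2 • R₀ - 1) * (2 • R₀ - 1) = 1 := Subtype.ext (by simpa [R₀] using U.cayley)
  have hcayS : star (2 • S₀ - 1) * (2 • S₀ - 1) = 1 := Subtype.ext (by simpa [S₀] using V.cayley)
  obtain ⟨χ, hχ⟩ : ∃ χ : characterSpace ℂ A, χ Z ≠ 0 := by
    by_contra hcon
    push Not at hcon
    have hZ : Z = 0 := (gelfandTransform_isometry A).injective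
      (by ext χ; simp [hcon χ])
    obtain ⟨h, v, hv⟩ := hne
    refine hv (sub_eq_zero.1 (V.res_injective (U.res_injective ?_)))
    have hW : ∀ w, (a : ℂ) • (R (S w) - S w) + (b : ℂ) • (R (S w) - R w) = 0 := by
      intro w
      refine V.res_injective (U.res_injective ?_)
      have hcomm : Z = (R₀ * S₀) * ((a : ℂ) • ((R₀ - 1) * S₀) + (b : ℂ) • (R₀ * (S₀ - 1))) :=
        mul_comm _ _
      have := congrArg (fun z : A => (z : K →L[ℂ] K) w) (hcomm.symm.trans hZ)
      simpa [R₀, S₀, hR, hS] using this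
    have hf : ∀ s, HasDerivAt
        (fun s => U.op (a * s) (R ((1 : K →L[ℂ] K) (V.op (b * s) (S v))))) 0 s := by
      intro s
      have hy : HasDerivAt (fun s => V.op (b * s) (S v)) (b • V.op (b * s) (S v - v)) s := by
        simpa [Function.comp_def] using
          (V.hasDerivAt_op_res (b * s) v).scomp s ((hasDerivAt_id s).const_mul b)
      refine (U.hasDerivAt_comb 1 a hy).congr_deriv ?_
      have hRV : ∀ w, R (V.op (b * s) w) = V.op (b * s) (R w) :=
        fun w => DFunLike.congr_fun (comm_res_op U V hUV (b * s)).eq w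
      have hinner : R (b • V.op (b * s) (S v - v)) + a • (R (V.op (b * s) (S v)) - V.op (b * s) (S v))
          = 0 := by
        rw [R.map_smul_of_tower, hRV, hRV, ← map_sub (V.op (b * s)),
          ← (V.op (b * s)).map_smul_of_tower b, ← (V.op (b * s)).map_smul_of_tower a, ← map_add,
          map_sub R, ← Complex.coe_smul b, ← Complex.coe_smul a, add_comm, hW, map_zero]
      simp only [one_apply_eq_self, ← hR, hinner, map_zero]
    have hconst := is_const_of_deriv_eq_zero (fun s => (hf s).differentiableAt)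
      (fun s => (hf s).deriv) h 0
    simp only [one_apply_eq_self, mul_zero, U.zero_apply, V.zero_apply] at hconst
    rw [map_sub, map_sub, sub_eq_zero, ← hR, ← hS]
    rw [show R (S (U.op (a * h) (V.op (b * h) v))) = U.op (a * h) (R (V.op (b * h) (S v))) from ?_]
    · exact hconst
    · have e1 : ∀ w, S (U.op (a * h) w) = U.op (a * h) (S w) := fun w => DFunLike.congr_fun
        (comm_res_op V U (fun s t => (hUV t s).symm) (a * h)).eq w
      have e2 : ∀ w, R (U.op (a * h) w) = U.op (a * h) (R w) :=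
        fun w => DFunLike.congr_fun (U.op_res_comm (a * h)).eq w
      have e3 : ∀ w, S (V.op (b * h) w) = V.op (b * h) (S w) :=
        fun w => DFunLike.congr_fun (V.op_res_comm (b * h)).eq w
      rw [e1, e2, e3]
  set κ := χ R₀
  set μ := χ S₀
  have hcκ : conj (2 * κ - 1) * (2 * κ - 1) = 1 := by
    have := congrArg χ hcayR
    simpa [κ, map_star, two_smul, two_mul] using this
  have hcμ : conj (2 * μ - 1) * (2 * μ - 1) = 1 := by
    have := congrArg χ hcayS
    simpa [μ, map_star, two_smul, two_mul] using this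
  have hZv : χ Z = ((a : ℂ) * ((κ - 1) * μ) + (b : ℂ) * (κ * (μ - 1))) * (κ * μ) := by
    simp [Z, κ, μ, -Complex.coe_smul]
  have hκ : κ ≠ 0 := fun h0 => hχ (by rw [hZv, h0]; simp)
  have hμ : μ ≠ 0 := fun h0 => hχ (by rw [hZv, h0]; simp)
  obtain ⟨r, hr⟩ := exists_re_param hcκ hκ
  obtain ⟨p, hp⟩ := exists_re_param hcμ hμ
  refine ⟨r, p, fun hlin => hχ ?_, ?_⟩
  · have e : κ - 1 = I * r * κ := by linear_combination hr
    have e' : μ - 1 = I * p * μ := by linear_combination hp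
    have hlin' : (a : ℂ) * r + (b : ℂ) * p = 0 := by exact_mod_cast hlin
    rw [hZv, e, e']
    linear_combination (I * κ * μ * (κ * μ)) * hlin'
  intro ε hε
  by_contra hcon
  push Not at hcon
  set c₁ : ℂ := 1 - I * r
  set c₂ : ℂ := 1 - I * p
  let P : A := star (c₁ • R₀ - 1) * (c₁ • R₀ - 1) + star (c₂ • S₀ - 1) * (c₂ • S₀ - 1)
  have hχP : χ P = 0 := by simp [P, κ, μ, map_star, c₁, c₂] at hr hp ⊢; simp [hr, hp]
  have hnu : ¬ IsUnit P := fun hu => (hu.map χ).ne_zero hχP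
  refine hnu ?_
  have hPv : ∀ v : K, (⟪(P : K →L[ℂ] K) v, v⟫_ℂ).re
      = ‖c₁ • R v - v‖ ^ 2 + ‖c₂ • S v - v‖ ^ 2 := by
    intro v
    have e : ∀ T : K →L[ℂ] K, (⟪(star T * T) v, v⟫_ℂ).re = ‖T v‖ ^ 2 := fun T => by
      rw [ContinuousLinearMap.star_eq_adjoint, mul_apply_eq_comp,
        ContinuousLinearMap.adjoint_inner_left]
      simpa using inner_self_eq_norm_sq (𝕜 := ℂ) (T v)
    show (⟪(star (c₁ • R - 1) * (c₁ • R - 1) + star (c₂ • S - 1) * (c₂ • S - 1)) v, v⟫_ℂ).re = _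
    rw [add_apply, inner_add_left, Complex.add_re, e, e]
    simp
  have hsa : star (P : K →L[ℂ] K) = P := by simp [P]
  have hcoer : ∀ v, ε ^ 2 * ‖v‖ ^ 2 ≤ (⟪(P : K →L[ℂ] K) v, v⟫_ℂ).re := by
    intro v
    rw [hPv]
    rcases eq_or_ne v 0 with rfl | hv
    · simp
    have hn : 0 < ‖v‖ := norm_pos_iff.2 hv
    have h1 := hcon (((‖v‖⁻¹ : ℝ) : ℂ) • v) (by simp [norm_smul, hn.ne'])
    have hs : ∀ (c : ℂ) (T : K →L[ℂ] K),
        ‖c • T (((‖v‖⁻¹ : ℝ) : ℂ) • v) - ((‖v‖⁻¹ : ℝ) : ℂ) • v‖ = ‖v‖⁻¹ * ‖c • T v - v‖ :=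
      fun c T => by rw [map_smul, smul_comm, ← smul_sub, norm_smul]; simp
    rw [hs, hs] at h1
    by_cases h2 : ‖v‖⁻¹ * ‖c₁ • R v - v‖ ≤ ε
    · have := h1 h2
      rw [lt_inv_mul_iff₀ hn] at this
      nlinarith [sq_nonneg ‖c₁ • R v - v‖, mul_pos hn hε]
    · rw [not_le, lt_inv_mul_iff₀ hn] at h2
      nlinarith [sq_nonneg ‖c₂ • S v - v‖, mul_pos hn hε]
  obtain ⟨u, hu⟩ := isUnit_of_coercive hsa (by positivity) hcoer
  have hinv : (↑u⁻¹ : K →L[ℂ] K) ∈ A := by
    rw [StarSubalgebra.mem_centralizer_iff]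
    intro g hg
    have hc := (StarSubalgebra.mem_centralizer_iff ℂ).1 P.2 g hg
    rw [← hu] at hc
    exact ⟨(Commute.units_inv_right (show Commute g ↑u from hc.1)).eq,
      (Commute.units_inv_right (show Commute (star g) ↑u from hc.2)).eq⟩
  exact ⟨⟨P, ⟨↑u⁻¹, hinv⟩, Subtype.ext (by simp [← hu]), Subtype.ext (by simp [← hu])⟩, rfl⟩

include hUV in
/-- The spectral point is attained inside a dense invariant set, with Lipschitz bounds. -/
theorem exists_approx (D : Set K) (hD : Dense D) (hU : ∀ x ∈ D, U.res x ∈ D)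
    (hV : ∀ x ∈ D, V.res x ∈ D) (a b : ℝ)
    (hne : ∃ h v, U.op (a * h) (V.op (b * h) v) ≠ v) :
    ∃ r p : ℝ, a * r + b * p ≠ 0 ∧ ∀ η > (0 : ℝ), ∃ y ∈ D, y ≠ 0 ∧
      (∀ t : ℝ, ‖U.op t y - Complex.exp (I * (r * t : ℝ)) • y‖ ≤ η * |t| * ‖y‖) ∧
      ∀ s : ℝ, ‖V.op s y - Complex.exp (I * (p * s : ℝ)) • y‖ ≤ η * |s| * ‖y‖ := by
  obtain ⟨r, p, hlin, h⟩ := exists_joint U V hUV a b hne
  refine ⟨r, p, hlin, fun η hη => ?_⟩
  set c₁ : ℂ := 1 - I * r with hc₁
  set c₂ : ℂ := 1 - I * p with hc₂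
  have h1 : 0 < ‖c₁‖ := norm_pos_iff.2 fun h0 => by
    simpa [hc₁] using congrArg Complex.re h0
  have h2 : 0 < ‖c₂‖ := norm_pos_iff.2 fun h0 => by
    simpa [hc₂] using congrArg Complex.re h0
  set ε := min (1 / (4 * (‖c₁‖ + 1))) (η / (4 * (‖c₁‖ * ‖c₂‖)))
  have hε : 0 < ε := by positivity
  obtain ⟨v, hv, hv1, hv2⟩ := h (ε / 2) (by positivity)
  have hcont : ∀ (c : ℂ) (T : K →L[ℂ] K), IsOpen {x : K | ‖c • T x - x‖ < ε} := fun c T =>
    isOpen_lt (((T.continuous.const_smul c).sub continuous_id).norm) continuous_const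
  have hopen : IsOpen {x : K | ‖c₁ • U.res x - x‖ < ε ∧ ‖c₂ • V.res x - x‖ < ε ∧ 1 / 2 < ‖x‖} :=
    (hcont c₁ U.res).inter ((hcont c₂ V.res).inter (isOpen_lt continuous_const continuous_norm))
  obtain ⟨x, ⟨hx1, hx2, hx3⟩, hxD⟩ := hD.inter_open_nonempty _ hopen
    ⟨v, by linarith, by linarith, by linarith⟩
  have hy4 : 1 / 4 ≤ ‖c₁‖ * ‖c₂‖ * ‖U.res (V.res x)‖ := by
    have e : c₁ • U.res (c₂ • V.res x - x) + (c₁ • U.res x - x) + x
        = (c₁ * c₂) • U.res (V.res x) := by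
      rw [map_sub, map_smul, smul_sub, smul_smul]; abel
    have ht := congrArg norm e
    rw [norm_smul, norm_mul] at ht
    have hl := norm_sub_le (c₁ • U.res (c₂ • V.res x - x) + (c₁ • U.res x - x) + x)
      (c₁ • U.res (c₂ • V.res x - x) + (c₁ • U.res x - x))
    rw [add_sub_cancel_left, ht] at hl
    have hl2 := norm_add_le (c₁ • U.res (c₂ • V.res x - x)) (c₁ • U.res x - x)
    rw [norm_smul] at hl2
    have hl3 := mul_le_mul_of_nonneg_left ((norm_res_le U (c₂ • V.res x - x)).trans hx2.le) h1.le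
    have hε1 : (‖c₁‖ + 1) * ε ≤ 1 / 4 := by
      have := min_le_left (1 / (4 * (‖c₁‖ + 1))) (η / (4 * (‖c₁‖ * ‖c₂‖)))
      calc (‖c₁‖ + 1) * ε ≤ (‖c₁‖ + 1) * (1 / (4 * (‖c₁‖ + 1))) := by gcongr
        _ = 1 / 4 := by field_simp
    linarith
  have hεy : ε ≤ η * ‖U.res (V.res x)‖ := by
    refine (min_le_right _ _).trans ?_
    rw [div_le_iff₀ (by positivity)]
    nlinarith
  refine ⟨U.res (V.res x), hU _ (hV _ hxD), fun h0 => ?_, fun t => ?_, fun s => ?_⟩
  · rw [h0, norm_zero, mul_zero] at hy4; norm_num at hy4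
  · refine (U.norm_op_res_sub r t _).trans ?_
    have e : c₁ • U.res (V.res x) - V.res x = V.res (c₁ • U.res x - x) := by
      rw [map_sub, map_smul]
      congr 2
      exact DFunLike.congr_fun (comm_res_res U V hUV).eq x
    rw [e, mul_comm η, mul_assoc]
    gcongr
    exact ((norm_res_le V _).trans hx1.le).trans hεy
  · have e : U.res (V.res x) = V.res (U.res x) :=
      DFunLike.congr_fun (comm_res_res U V hUV).eq x
    rw [e] at hεy ⊢
    refine (V.norm_op_res_sub p s _).trans ?_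
    have e' : c₂ • V.res (U.res x) - U.res x = U.res (c₂ • V.res x - x) := by
      rw [map_sub, map_smul, ← e]
    rw [e', mul_comm η, mul_assoc]
    gcongr
    exact ((norm_res_le U _).trans hx2.le).trans hεy

end P132.Endgame
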