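import Mathlib

/-!
# P132 endgame: bounded resolvent of a strongly continuous unitary group
-/

noncomputable section

namespace P132.Endgame

open Filter Topology Complex MeasureTheory Set
open scoped InnerProductSpace

variable {K : Type*} [NormedAddCommGroup K] [InnerProductSpace ℂ K]

/-- A strongly continuous one-parameter group of isometries. -/
structure UGroup (K : Type*) [NormedAddCommGroup K] [InnerProductSpace ℂ K] where
  op : ℝ → K →L[ℂ] K
  zero : op 0 = 1
  add : ∀ s t, op (s + t) = op s * op t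
  norm_apply : ∀ t v, ‖op t v‖ = ‖v‖
  cont : ∀ v, Continuous fun t => op t v

namespace UGroup

variable (U : UGroup K)

lemma add_apply (s t : ℝ) (v : K) : U.op (s + t) v = U.op s (U.op t v) := by
  rw [U.add]; rfl

lemma zero_apply (v : K) : U.op 0 v = v := by rw [U.zero]; rfl

lemma neg_apply (t : ℝ) (v : K) : U.op t (U.op (-t) v) = v := by
  rw [← U.add_apply, add_neg_cancel, U.zero_apply]

lemma inner_apply (t : ℝ) (v w : K) : ⟪U.op t v, U.op t w⟫_ℂ = ⟪v, w⟫_ℂ :=
  (LinearMap.norm_map_iff_inner_map_map (U.op t)).1 (U.norm_apply t) v w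

lemma tendsto_apply {α : Type*} {l : Filter α} {t : α → ℝ} {t₀ : ℝ} {v : α → K} {v₀ : K}
    (ht : Tendsto t l (𝓝 t₀)) (hv : Tendsto v l (𝓝 v₀)) :
    Tendsto (fun a => U.op (t a) (v a)) l (𝓝 (U.op t₀ v₀)) := by
  rw [tendsto_iff_norm_sub_tendsto_zero]
  have h1 : Tendsto (fun a => ‖v a - v₀‖) l (𝓝 0) := tendsto_iff_norm_sub_tendsto_zero.1 hv
  have h2 : Tendsto (fun a => ‖U.op (t a) v₀ - U.op t₀ v₀‖) l (𝓝 0) :=
    tendsto_iff_norm_sub_tendsto_zero.1 (((U.cont v₀).tendsto t₀).comp ht)
  refine squeeze_zero (fun _ => norm_nonneg _) (fun a => ?_) (by simpa using h1.add h2)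
  calc ‖U.op (t a) (v a) - U.op t₀ v₀‖
      ≤ ‖U.op (t a) (v a - v₀)‖ + ‖U.op (t a) v₀ - U.op t₀ v₀‖ := by
        rw [map_sub]; exact norm_sub_le_norm_sub_add_norm_sub _ _ _
    _ = _ := by rw [U.norm_apply]

/-- The group with time reversed. -/
def inv : UGroup K where
  op t := U.op (-t)
  zero := by simp [U.zero]
  add s t := by rw [← U.add, neg_add]
  norm_apply t v := U.norm_apply _ v
  cont v := (U.cont v).comp continuous_neg

variable [CompleteSpace K]

omit [CompleteSpace K] in
lemma integrableOn_weight (v : K) (a : ℝ) :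
    IntegrableOn (fun t => Real.exp (-t) • U.op t v) (Ioi a) := by
  refine Integrable.mono' ((integrableOn_exp_neg_Ioi a).mul_const ‖v‖)
    ((Real.continuous_exp.comp continuous_neg).smul (U.cont v)).aestronglyMeasurable ?_
  refine ae_of_all _ fun t => ?_
  rw [norm_smul, U.norm_apply, Real.norm_eq_abs, abs_of_nonneg (Real.exp_pos _).le]

/-- The resolvent (1 - iA)⁻¹, where `op t = exp (i t A)`. -/
def res : K →L[ℂ] K :=
  LinearMap.mkContinuous
    { toFun := fun v => ∫ t in Ioi (0 : ℝ), Real.exp (-t) • U.op t v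
      map_add' := fun v w => by
        simp only [map_add, smul_add]
        exact integral_add (U.integrableOn_weight v 0) (U.integrableOn_weight w 0)
      map_smul' := fun c v => by
        simp only [map_smul, RingHom.id_apply]
        rw [← integral_smul]
        exact integral_congr_ae (ae_of_all _ fun t => smul_comm _ _ _) }
    1 fun v => by
      refine (norm_integral_le_integral_norm _).trans (le_of_eq ?_)
      simp only [norm_smul, U.norm_apply, Real.norm_eq_abs, abs_of_nonneg (Real.exp_pos _).le]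
      rw [integral_mul_const, integral_exp_neg_Ioi_zero]

omit [CompleteSpace K] in
lemma res_apply (v : K) : U.res v = ∫ t in Ioi (0 : ℝ), Real.exp (-t) • U.op t v := rfl

lemma res_comm {L : K →L[ℂ] K} (h : ∀ t, Commute (U.op t) L) : Commute U.res L := by
  refine ContinuousLinearMap.ext fun v => ?_
  show U.res (L v) = L (U.res v)
  rw [U.res_apply, U.res_apply, ← L.integral_comp_comm (U.integrableOn_weight v 0)]
  refine integral_congr_ae (ae_of_all _ fun t => ?_)
  show Real.exp (-t) • U.op t (L v) = L (Real.exp (-t) • U.op t v)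
  rw [L.map_smul_of_tower]
  congr 1
  exact DFunLike.congr_fun (h t).eq v

omit [CompleteSpace K] in
lemma op_comm (s t : ℝ) : Commute (U.op s) (U.op t) := by
  show _ = _
  rw [← U.add, ← U.add, add_comm]

lemma op_res_comm (h : ℝ) : Commute U.res (U.op h) := U.res_comm fun t => U.op_comm t h

lemma op_res (h : ℝ) (v : K) :
    U.op h (U.res v) = Real.exp h • (U.res v - ∫ t in (0 : ℝ)..h, Real.exp (-t) • U.op t v) := by
  rw [intervalIntegral.integral_Ioi_sub_Ioi' (U.integrableOn_weight v 0) (U.integrableOn_weight v h)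
      |>.symm, ← U.res_apply, sub_sub_cancel, ← integral_smul]
  rw [U.res_apply, ← (U.op h).integral_comp_comm (U.integrableOn_weight v 0)]
  have hmap : MeasurePreserving (fun t : ℝ => t + h) volume volume :=
    measurePreserving_add_right volume h
  rw [← hmap.setIntegral_preimage_emb (measurableEmbedding_addRight h) _ (Ioi h)]
  have : (fun t : ℝ => t + h) ⁻¹' Ioi h = Ioi 0 := by ext t; simp
  rw [this]
  refine integral_congr_ae (ae_of_all _ fun t => ?_)
  show U.op h (Real.exp (-t) • U.op t v) = Real.exp h • Real.exp (-(t + h)) • U.op (t + h) v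
  rw [(U.op h).map_smul_of_tower, ← U.add_apply, smul_smul, ← Real.exp_add, add_comm h t]
  congr 2
  ring

lemma hasDerivAt_op_res (h : ℝ) (v : K) :
    HasDerivAt (fun s => U.op s (U.res v)) (U.op h (U.res v - v)) h := by
  have hc : Continuous fun t => Real.exp (-t) • U.op t v :=
    (Real.continuous_exp.comp continuous_neg).smul (U.cont v)
  have hd := (Real.hasDerivAt_exp h).smul
    ((intervalIntegral.integral_hasDerivAt_right (hc.intervalIntegrable 0 h)
      (hc.stronglyMeasurableAtFilter _ _) hc.continuousAt).const_sub (U.res v))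
  refine (hd.congr_of_eventuallyEq (Eventually.of_forall fun s => U.op_res s v)).congr_deriv ?_
  rw [← U.op_res h v, map_sub, smul_neg, smul_smul, ← Real.exp_add, add_neg_cancel, Real.exp_zero,
    one_smul]
  abel

lemma norm_op_res_sub (r h : ℝ) (v : K) :
    ‖U.op h (U.res v) - Complex.exp (I * (r * h : ℝ)) • U.res v‖
      ≤ |h| * ‖(1 - I * r) • U.res v - v‖ := by
  have hd : ∀ s, HasDerivAt
      (fun s => Complex.exp (-(I * (r * s : ℝ))) • U.op s (U.res v))
      (Complex.exp (-(I * (r * s : ℝ))) • U.op s ((1 - I * r) • U.res v - v)) s := by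
    intro s
    have he : HasDerivAt (fun s : ℝ => Complex.exp (-(I * (r * s : ℝ))))
        (Complex.exp (-(I * (r * s : ℝ))) * -(I * r)) s := by
      have := ((((hasDerivAt_id s).const_mul r).ofReal_comp).const_mul I).neg.cexp
      simpa using this
    refine (he.smul (U.hasDerivAt_op_res s v)).congr_deriv ?_
    simp only [map_sub, map_smul, sub_smul, smul_sub, smul_smul, mul_neg, neg_smul, one_smul]
    abel
  have hnorm : ∀ s : ℝ, ‖Complex.exp (-(I * (r * s : ℝ)))‖ = 1 := fun s => by
    rw [Complex.norm_exp]; simp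
  have key := Convex.norm_image_sub_le_of_norm_hasDerivWithin_le
    (f := fun s => Complex.exp (-(I * (r * s : ℝ))) • U.op s (U.res v))
    (C := ‖(1 - I * r) • U.res v - v‖) (fun s _ => (hd s).hasDerivWithinAt)
    (fun s _ => le_of_eq (by rw [norm_smul, hnorm, one_mul, U.norm_apply]))
    convex_univ (mem_univ 0) (mem_univ h)
  simp only [U.zero_apply, mul_zero, Complex.ofReal_zero, neg_zero, Complex.exp_zero, one_smul,
    sub_zero, Real.norm_eq_abs] at key
  refine le_trans (le_of_eq ?_) (key.trans_eq (mul_comm _ _))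
  rw [← one_mul ‖_ - U.res v‖, ← show ‖Complex.exp (I * (r * h : ℝ))‖ = 1 by
    rw [Complex.norm_exp]; simp, ← norm_smul, smul_sub, smul_smul, ← Complex.exp_add,
    add_neg_cancel, Complex.exp_zero, one_smul]

lemma res_injective {v : K} (h : U.res v = 0) : v = 0 := by
  have hd := U.hasDerivAt_op_res 0 v
  simp only [h, map_zero, zero_sub, U.zero_apply] at hd
  simpa using hd.unique (hasDerivAt_const 0 0)

lemma star_res : star U.res = U.inv.res := by
  rw [ContinuousLinearMap.star_eq_adjoint]
  refine ContinuousLinearMap.ext fun v => ext_inner_right ℂ fun w => ?_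
  rw [ContinuousLinearMap.adjoint_inner_left, U.res_apply, U.inv.res_apply,
    ← integral_inner (U.integrableOn_weight w 0), ← inner_conj_symm,
    ← integral_inner (U.inv.integrableOn_weight v 0), ← integral_conj]
  refine integral_congr_ae (ae_of_all _ fun t => ?_)
  show ⟪v, Real.exp (-t) • U.op t w⟫_ℂ = (starRingEnd ℂ) ⟪w, Real.exp (-t) • U.op (-t) v⟫_ℂ
  rw [inner_conj_symm, inner_smul_left_eq_smul, inner_smul_right_eq_smul]
  congr 1
  conv_lhs => rw [← U.inner_apply (-t), ← U.add_apply, neg_add_cancel, U.zero_apply]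

lemma inner_res_self (v : K) :
    2 * ‖U.res v‖ ^ 2 = (⟪U.res v, v⟫_ℂ).re + (⟪v, U.res v⟫_ℂ).re := by
  have hd := (U.hasDerivAt_op_res 0 v).inner ℂ (U.hasDerivAt_op_res 0 v)
  have hc : (fun s => ⟪U.op s (U.res v), U.op s (U.res v)⟫_ℂ)
      = fun _ => ⟪U.res v, U.res v⟫_ℂ := funext fun s => U.inner_apply s _ _
  rw [hc] at hd
  have := congrArg Complex.re (hd.unique (hasDerivAt_const 0 _))
  simp only [U.zero_apply, inner_sub_left, inner_sub_right, Complex.add_re, Complex.sub_re,
    Complex.zero_re] at this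
  have hn : (⟪U.res v, U.res v⟫_ℂ).re = ‖U.res v‖ ^ 2 := by
    have := inner_self_eq_norm_sq (𝕜 := ℂ) (U.res v); simpa using this
  linarith

lemma cayley : star (2 • U.res - 1) * (2 • U.res - 1) = 1 := by
  rw [ContinuousLinearMap.star_eq_adjoint]
  refine (ContinuousLinearMap.norm_map_iff_adjoint_comp_self _).1 fun v => ?_
  have h := U.inner_res_self v
  have : (2 • U.res - 1 : K →L[ℂ] K) v = (2 : ℂ) • U.res v - v := by
    simp [two_smul]
  rw [this]
  have e : ‖(2 : ℂ) • U.res v - v‖ ^ 2 = ‖v‖ ^ 2 := by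
    rw [@norm_sub_sq ℂ, norm_smul, inner_smul_left]
    have hs : (⟪v, U.res v⟫_ℂ).re = (⟪U.res v, v⟫_ℂ).re := by
      rw [← inner_conj_symm, Complex.conj_re]
    simp
    nlinarith [h, hs]
  exact (pow_left_inj₀ (norm_nonneg _) (norm_nonneg _) two_ne_zero).1 e

lemma hasDerivAt_comb (L : K →L[ℂ] K) (a : ℝ) {y : ℝ → K} {y' : K} {h : ℝ}
    (hy : HasDerivAt y y' h) :
    HasDerivAt (fun s => U.op (a * s) (U.res (L (y s))))
      (U.op (a * h) (U.res (L y') + a • (U.res (L (y h)) - L (y h)))) h := by
  have h2 : HasDerivAt (fun s => U.op (a * s) (U.res (L (y h))))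
      (U.op (a * h) (a • (U.res (L (y h)) - L (y h)))) h := by
    have := (U.hasDerivAt_op_res (a * h) (L (y h))).scomp h ((hasDerivAt_id h).const_mul a)
    simpa [(U.op (a * h)).map_smul_of_tower, Function.comp_def] using this
  rw [hasDerivAt_iff_tendsto_slope] at hy ⊢
  rw [map_add]
  have h3 : Tendsto (fun s => U.op (a * s) (U.res (L (slope y h s)))) (𝓝[≠] h)
      (𝓝 (U.op (a * h) (U.res (L y')))) :=
    U.tendsto_apply ((continuous_const.mul continuous_id).continuousWithinAt)
      ((((U.res.comp L).continuous.tendsto _).comp hy))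
  refine (h3.add (hasDerivAt_iff_tendsto_slope.1 h2)).congr' (Eventually.of_forall fun s => ?_)
  show U.op (a * s) (U.res (L (slope y h s))) + slope _ h s = slope _ h s
  simp only [slope_def_module, map_sub, ContinuousLinearMap.map_smul_of_tower, smul_sub]
  abel

end UGroup

end P132.Endgame
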