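import Mathlib

/-!
# P132: joint spectrum of a strongly continuous unitary representation of the plane

No spectral theorem is used: the spectrum is the set of points at which the Fourier transform is
dominated by the operator norm of the integrated representation, and the opposite bound comes from
Gelfand duality in the commutative C*-algebra generated by the integrated representation.
-/

noncomputable section

namespace P132.Spectral

open MeasureTheory Filter Topology Complex WeakDual
open scoped ComplexConjugate InnerProductSpace FourierTransform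

/-- A strongly continuous unitary representation of `ℝ × ℝ`. -/
structure Rep (K : Type*) [NormedAddCommGroup K] [InnerProductSpace ℂ K] [CompleteSpace K] where
  U : ℝ × ℝ → K →L[ℂ] K
  U_zero : U 0 = 1
  U_add : ∀ w w', U (w + w') = U w * U w'
  U_star : ∀ w, star (U w) = U (-w)
  U_cont : ∀ v, Continuous fun w => U w v

/-- The character `w ↦ exp (i ⟨l, w⟩)`. -/
def chr (l w : ℝ × ℝ) : ℂ := Complex.exp (I * ((l.1 * w.1 + l.2 * w.2 : ℝ) : ℂ))

/-- Fourier transform, with the sign of `chr`. -/
def hat (f : ℝ × ℝ → ℂ) (l : ℝ × ℝ) : ℂ := ∫ w, f w * chr l w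

/-- Translation. -/
def shift (w : ℝ × ℝ) (f : ℝ × ℝ → ℂ) : ℝ × ℝ → ℂ := fun x => f (x - w)

theorem norm_chr (l w : ℝ × ℝ) : ‖chr l w‖ = 1 := by
  rw [chr, mul_comm, Complex.norm_exp_ofReal_mul_I]

theorem continuous_chr (w : ℝ × ℝ) : Continuous fun l => chr l w := by
  unfold chr
  fun_prop

theorem continuous_chr' (l : ℝ × ℝ) : Continuous fun w => chr l w := by
  unfold chr
  fun_prop

theorem chr_add (l w w' : ℝ × ℝ) : chr l (w + w') = chr l w * chr l w' := by
  simp only [chr, ← Complex.exp_add, Prod.fst_add, Prod.snd_add]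
  push_cast
  ring_nf

theorem integrable_mul_chr {f : ℝ × ℝ → ℂ} (hf : Integrable f) (l : ℝ × ℝ) :
    Integrable fun w => f w * chr l w :=
  hf.mul_bdd (continuous_chr' l).aestronglyMeasurable (Eventually.of_forall fun w => (norm_chr l w).le)

theorem integrable_shift {f : ℝ × ℝ → ℂ} (hf : Integrable f) (w : ℝ × ℝ) :
    Integrable (shift w f) :=
  hf.comp_sub_right w

theorem hat_shift (f : ℝ × ℝ → ℂ) (w l : ℝ × ℝ) : hat (shift w f) l = chr l w * hat f l := by
  unfold hat shift
  rw [← integral_add_right_eq_self _ w, ← integral_const_mul]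
  refine integral_congr_ae (Eventually.of_forall fun x => ?_)
  simp only [add_sub_cancel_right, chr_add]
  ring

theorem hat_sub_smul {f g : ℝ × ℝ → ℂ} (hf : Integrable f) (hg : Integrable g) (c : ℂ) (l : ℝ × ℝ) :
    hat (f - c • g) l = hat f l - c * hat g l := by
  unfold hat
  rw [← integral_const_mul, ← integral_sub (integrable_mul_chr hf l)
    ((integrable_mul_chr hg l).const_mul c)]
  refine integral_congr_ae (Eventually.of_forall fun x => ?_)
  simp only [Pi.sub_apply, Pi.smul_apply, smul_eq_mul]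
  ring

theorem continuous_hat {f : ℝ × ℝ → ℂ} (hf : Integrable f) : Continuous (hat f) :=
  continuous_of_dominated (fun l => (integrable_mul_chr hf l).aestronglyMeasurable)
    (fun l => Eventually.of_forall fun w => by rw [norm_mul, norm_chr, mul_one])
    hf.norm (Eventually.of_forall fun w => continuous_const.mul (continuous_chr w))

theorem tendsto_integral_shift_sub {f : ℝ × ℝ → ℂ} (hf : Integrable f) :
    Tendsto (fun d => ∫ x, ‖shift d f x - f x‖) (𝓝 0) (𝓝 0) := by
  rw [Metric.tendsto_nhds]
  intro ε hε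
  obtain ⟨g, hgc, hfg, hg, hgi⟩ :=
    hf.exists_hasCompactSupport_integral_sub_le (show 0 < ε / 4 by linarith)
  have hG : Tendsto (fun d => ∫ x, ‖shift d g x - g x‖) (𝓝 0) (𝓝 0) := by
    obtain ⟨C, hC⟩ := hg.bounded_above_of_compact_support hgc
    have hC0 : 0 ≤ C := (norm_nonneg _).trans (hC 0)
    set S := Metric.cthickening 1 (tsupport g) with hS
    have hSc : IsCompact S := hgc.cthickening
    have hb : Integrable (S.indicator fun _ => 2 * C : ℝ × ℝ → ℝ) := by
      rw [integrable_indicator_iff hSc.measurableSet]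
      exact integrableOn_const hSc.measure_lt_top.ne
    have key : Tendsto (fun d => ∫ x, ‖shift d g x - g x‖) (𝓝 0)
        (𝓝 (∫ _x : ℝ × ℝ, (0 : ℝ))) := by
      refine tendsto_integral_filter_of_dominated_convergence (S.indicator fun _ => 2 * C) ?_ ?_ hb ?_
      · exact Eventually.of_forall fun d =>
          (((hg.comp (continuous_id.sub continuous_const)).sub hg).norm).aestronglyMeasurable
      · filter_upwards [Metric.closedBall_mem_nhds (0 : ℝ × ℝ) one_pos] with d hd
        refine Eventually.of_forall fun x => ?_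
        rw [norm_norm]
        by_cases hx : x ∈ S
        · rw [Set.indicator_of_mem hx]
          calc ‖shift d g x - g x‖ ≤ ‖g (x - d)‖ + ‖g x‖ := norm_sub_le _ _
            _ ≤ 2 * C := by linarith [hC (x - d), hC x]
        · rw [Set.indicator_of_notMem hx]
          have h1 : g x = 0 := image_eq_zero_of_notMem_tsupport fun h =>
            hx (Metric.self_subset_cthickening _ h)
          have h2 : g (x - d) = 0 := image_eq_zero_of_notMem_tsupport fun h =>
            hx (Metric.mem_cthickening_of_dist_le x (x - d) 1 _ h (by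
              simpa [dist_eq_norm] using hd))
          simp [shift, h1, h2]
      · refine Eventually.of_forall fun x => ?_
        have : Tendsto (fun d => ‖g (x - d) - g x‖) (𝓝 0) (𝓝 ‖g (x - 0) - g x‖) :=
          Continuous.tendsto (by fun_prop) _
        simpa [shift] using this
    simpa using key
  filter_upwards [Metric.tendsto_nhds.1 hG (ε / 4) (by linarith)] with d hd
  have i1 : Integrable fun x => ‖shift d f x - shift d g x‖ :=
    ((integrable_shift hf d).sub (integrable_shift hgi d)).norm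
  have i2 : Integrable fun x => ‖shift d g x - g x‖ := ((integrable_shift hgi d).sub hgi).norm
  have i3 : Integrable fun x => ‖f x - g x‖ := (hf.sub hgi).norm
  have e1 : ∫ x, ‖shift d f x - shift d g x‖ = ∫ x, ‖f x - g x‖ :=
    integral_sub_right_eq_self (fun x => ‖f x - g x‖) d
  rw [Real.dist_eq, sub_zero, abs_of_nonneg (integral_nonneg fun x => norm_nonneg _)] at hd ⊢
  calc ∫ x, ‖shift d f x - f x‖
      ≤ ∫ x, (‖shift d f x - shift d g x‖ + ‖shift d g x - g x‖ + ‖f x - g x‖) := by
        refine integral_mono ((integrable_shift hf d).sub hf).norm ((i1.add i2).add i3) fun x => ?_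
        calc ‖shift d f x - f x‖
            = ‖(shift d f x - shift d g x) + (shift d g x - g x) + (g x - f x)‖ := by ring_nf
          _ ≤ _ := by rw [norm_sub_rev (f x) (g x)]; exact norm_add₃_le
    _ = (∫ x, ‖shift d f x - shift d g x‖) + (∫ x, ‖shift d g x - g x‖) + ∫ x, ‖f x - g x‖ := by
        have e := integral_add (i1.add i2) i3
        simp only [Pi.add_apply] at e
        rw [e, integral_add i1 i2]
    _ < ε := by linarith

/-- A bounded continuous character of the plane is `chr l`. -/
theorem exists_chr_eq {c : ℝ × ℝ → ℂ} (hc : Continuous c) (h0 : c 0 = 1)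
    (hadd : ∀ w w', c (w + w') = c w * c w') {C : ℝ} (hb : ∀ w, ‖c w‖ ≤ C) :
    ∃ l, ∀ w, c w = chr l w := by
  have one : ∀ γ : ℝ → ℂ, Continuous γ → γ 0 = 1 → (∀ s t, γ (s + t) = γ s * γ t) →
      (∀ t, ‖γ t‖ ≤ C) → ∃ r : ℝ, ∀ t, γ t = Complex.exp (I * ((r * t : ℝ) : ℂ)) := by
    intro γ hγ g0 gadd gb
    set P : ℝ → ℂ := fun t => ∫ s in (0:ℝ)..t, γ s with hP
    have dP : ∀ t, HasDerivAt P (γ t) t := fun t => (hγ.integral_hasStrictDerivAt 0 t).hasDerivAt
    obtain ⟨δ, hδ⟩ : ∃ δ, P δ ≠ 0 := by
      by_contra h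
      push Not at h
      have : HasDerivAt P 0 0 := by
        rw [show P = fun _ => (0 : ℂ) from funext h]
        exact hasDerivAt_const _ _
      exact one_ne_zero (g0 ▸ (dP 0).unique this)
    have eP : ∀ t, γ t * P δ = P (t + δ) - P t := by
      intro t
      simp only [hP]
      rw [intervalIntegral.integral_interval_sub_left (hγ.intervalIntegrable _ _)
        (hγ.intervalIntegrable _ _), ← intervalIntegral.integral_const_mul]
      simp_rw [← gadd]
      rw [intervalIntegral.integral_comp_add_left, add_zero]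
    set k : ℂ := (γ δ - 1) / P δ with hk
    have dγ : ∀ t, HasDerivAt γ (k * γ t) t := by
      intro t
      have h1 : HasDerivAt (fun t => (P (t + δ) - P t) / P δ) ((γ (t + δ) - γ t) / P δ) t :=
        (((dP (t + δ)).comp_add_const t δ).sub (dP t)).div_const _
      rw [show (fun t => (P (t + δ) - P t) / P δ) = γ from funext fun t => by
        rw [← eP, mul_div_assoc, div_self hδ, mul_one]] at h1
      convert h1 using 1
      rw [gadd, hk]
      ring
    have hexp : ∀ t, γ t = Complex.exp ((t : ℂ) * k) := by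
      intro t
      have hd : ∀ s : ℝ, HasDerivAt (fun s : ℝ => Complex.exp (-((s : ℂ) * k)) * γ s) 0 s := by
        intro s
        have := (((hasDerivAt_id s).ofReal_comp.mul_const k).neg.cexp).mul (dγ s)
        refine this.congr_deriv ?_ |>.congr_of_eventuallyEq (Eventually.of_forall fun x => ?_)
        · simp only [id, Pi.neg_apply, Complex.ofReal_one]
          ring
        · simp [mul_comm]
      have := is_const_of_deriv_eq_zero (fun s => (hd s).differentiableAt)
        (fun s => (hd s).deriv) t 0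
      simp only [Complex.ofReal_zero, zero_mul, neg_zero, Complex.exp_zero, one_mul, g0,
        Complex.exp_neg] at this
      rw [inv_mul_eq_iff_eq_mul₀ (Complex.exp_ne_zero _), mul_one] at this
      exact this
    have hre : k.re = 0 := by
      by_contra hne
      have : ∀ x : ℝ, Real.exp x ≤ C := fun x => by
        have := gb (x / k.re)
        rwa [hexp, Complex.norm_exp, mul_re, ofReal_re, ofReal_im, zero_mul, sub_zero,
          div_mul_cancel₀ _ hne] at this
      linarith [this C, Real.add_one_le_exp C]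
    refine ⟨k.im, fun t => ?_⟩
    rw [hexp]
    congr 1
    apply Complex.ext <;> simp [hre, mul_comm]
  obtain ⟨r, hr⟩ := one (fun t => c (t, 0)) (hc.comp (by fun_prop)) h0
    (fun s t => by rw [← hadd]; simp) (fun t => hb _)
  obtain ⟨p, hp⟩ := one (fun t => c (0, t)) (hc.comp (by fun_prop)) h0
    (fun s t => by rw [← hadd]; simp) (fun t => hb _)
  refine ⟨(r, p), fun w => ?_⟩
  rw [show w = (w.1, (0:ℝ)) + ((0:ℝ), w.2) by simp, hadd, hr, hp]
  simp [chr, ← Complex.exp_add, mul_add]

/-- A window, realised as a Fourier transform of an integrable function. -/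
theorem exists_window (c : ℝ) {ρ : ℝ} (hρ : 0 < ρ) :
    ∃ (f : ℝ → ℂ) (b : ℝ → ℝ), Integrable f ∧
      (∀ r, ∫ t, f t * Complex.exp (I * ((r * t : ℝ) : ℂ)) = (b r : ℂ)) ∧
      (∀ r, 0 ≤ b r ∧ b r ≤ 1) ∧ (∀ r, |r - c| ≤ ρ / 2 → b r = 1) ∧
      ∀ r, ρ ≤ |r - c| → b r = 0 := by
  let B : ContDiffBump c := ⟨ρ / 2, ρ, by linarith, by linarith⟩
  set G : ℝ → ℂ := fun v => (B (2 * Real.pi * v) : ℂ) with hG
  have hGd : ContDiff ℝ (⊤ : ℕ∞) G :=
    Complex.ofRealCLM.contDiff.comp (B.contDiff.comp (contDiff_const.mul contDiff_id))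
  have hGc : HasCompactSupport G := by
    have h2 : (2 * Real.pi : ℝ) ≠ 0 := by positivity
    have := (B.hasCompactSupport.comp_homeomorph (Homeomorph.mulLeft₀ _ h2)).comp_left
      (g := ((↑) : ℝ → ℂ)) Complex.ofReal_zero
    exact this
  let Gs : SchwartzMap ℝ ℂ := hGc.toSchwartzMap hGd
  have hi : Integrable (𝓕 G) := by
    have := (𝓕 Gs : SchwartzMap ℝ ℂ).integrable (μ := volume)
    rwa [SchwartzMap.fourier_coe] at this
  refine ⟨𝓕 G, B, hi, fun r => ?_, fun r => ⟨B.nonneg, B.le_one⟩, fun r hr => ?_, fun r hr => ?_⟩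
  · have key := congrFun (hGd.continuous.fourierInv_fourier_eq
      (hGd.continuous.integrable_of_hasCompactSupport hGc) hi) (r / (2 * Real.pi))
    have hb : G (r / (2 * Real.pi)) = (B r : ℂ) := by
      simp only [hG]
      rw [mul_div_cancel₀]
      positivity
    rw [← hb, ← key, Real.fourierInv_eq_fourier_neg, Real.fourier_real_eq_integral_exp_smul]
    refine integral_congr_ae (Eventually.of_forall fun t => ?_)
    simp only [smul_eq_mul]
    rw [mul_comm]
    congr 2
    push_cast
    field_simp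
  · exact B.one_of_mem_closedBall (by simpa [Metric.mem_closedBall, Real.dist_eq] using hr)
  · exact B.zero_of_le_dist (by simpa [Real.dist_eq] using hr)

theorem hat_prod {f g : ℝ → ℂ} (l : ℝ × ℝ) :
    hat (fun w => f w.1 * g w.2) l =
      (∫ t, f t * Complex.exp (I * ((l.1 * t : ℝ) : ℂ))) *
        ∫ t, g t * Complex.exp (I * ((l.2 * t : ℝ) : ℂ)) := by
  rw [hat, Measure.volume_eq_prod, ← integral_prod_mul]
  refine integral_congr_ae (Eventually.of_forall fun w => ?_)
  simp only [chr, Complex.ofReal_add, mul_add, Complex.exp_add]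
  ring

/-- A window in the plane. -/
theorem exists_window₂ (l : ℝ × ℝ) {ρ : ℝ} (hρ : 0 < ρ) :
    ∃ f : ℝ × ℝ → ℂ, Integrable f ∧ (∀ m, ‖hat f m‖ ≤ 1) ∧
      (∀ m, dist m l ≤ ρ / 2 → hat f m = 1) ∧ ∀ m, ρ ≤ dist m l → hat f m = 0 := by
  obtain ⟨f, b, hf, hb, h01, h1, h0⟩ := exists_window l.1 hρ
  obtain ⟨g, b', hg, hb', h01', h1', h0'⟩ := exists_window l.2 hρ
  have hh : ∀ m, hat (fun w => f w.1 * g w.2) m = ((b m.1 * b' m.2 : ℝ) : ℂ) := fun m => by
    rw [hat_prod, hb, hb']
    push_cast
    rfl
  refine ⟨fun w => f w.1 * g w.2, hf.mul_prod hg, fun m => ?_, fun m hm => ?_, fun m hm => ?_⟩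
  · rw [hh, Complex.norm_real, Real.norm_of_nonneg (mul_nonneg (h01 _).1 (h01' _).1)]
    exact mul_le_one₀ (h01 _).2 (h01' _).1 (h01' _).2
  · rw [Prod.dist_eq, max_le_iff, Real.dist_eq, Real.dist_eq] at hm
    simp [hh, h1 _ hm.1, h1' _ hm.2]
  · rw [Prod.dist_eq, le_max_iff, Real.dist_eq, Real.dist_eq] at hm
    rcases hm with hm | hm
    · simp [hh, h0 _ hm]
    · simp [hh, h0' _ hm]

variable {K : Type*} [NormedAddCommGroup K] [InnerProductSpace ℂ K] [CompleteSpace K]

namespace Rep

variable (R : Rep K)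

open scoped Classical in
/-- `∫ f w U w`. -/
def op (f : ℝ × ℝ → ℂ) : K →L[ℂ] K :=
  if h : ∃ T : K →L[ℂ] K, ∀ v, T v = ∫ w, f w • R.U w v then h.choose else 0

/-- The joint spectrum. -/
def spec : Set (ℝ × ℝ) := {l | ∀ f, Integrable f → ‖hat f l‖ ≤ ‖R.op f‖}

theorem norm_U_apply (w : ℝ × ℝ) (v : K) : ‖R.U w v‖ = ‖v‖ := by
  have h : star (R.U w) * R.U w = 1 := by rw [R.U_star, ← R.U_add, neg_add_cancel, R.U_zero]
  have h2 : ⟪R.U w v, R.U w v⟫_ℂ = ⟪v, v⟫_ℂ := by
    rw [← ContinuousLinearMap.adjoint_inner_right, ← ContinuousLinearMap.star_eq_adjoint,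
      ← mul_apply_eq_comp, h, one_apply_eq_self]
  have h3 : ‖R.U w v‖ ^ 2 = ‖v‖ ^ 2 := by
    rw [← @inner_self_eq_norm_sq ℂ, ← @inner_self_eq_norm_sq ℂ, h2]
  nlinarith [norm_nonneg (R.U w v), norm_nonneg v]

theorem integrable_smul {f : ℝ × ℝ → ℂ} (hf : Integrable f) (v : K) :
    Integrable fun w => f w • R.U w v :=
  Integrable.mono' (hf.norm.mul_const ‖v‖) (hf.1.smul (R.U_cont v).aestronglyMeasurable)
    (Eventually.of_forall fun w => by rw [norm_smul, R.norm_U_apply])

theorem op_spec {f : ℝ × ℝ → ℂ} (hf : Integrable f) :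
    (∀ v, R.op f v = ∫ w, f w • R.U w v) ∧ ‖R.op f‖ ≤ ∫ w, ‖f w‖ := by
  let L : K →ₗ[ℂ] K :=
    { toFun := fun v => ∫ w, f w • R.U w v
      map_add' := fun u v => by
        simp only [map_add, smul_add]
        exact integral_add (R.integrable_smul hf u) (R.integrable_smul hf v)
      map_smul' := fun c v => by
        simp only [map_smul, RingHom.id_apply]
        rw [← integral_smul]
        simp only [smul_comm c] }
  have hb : ∀ v, ‖L v‖ ≤ (∫ w, ‖f w‖) * ‖v‖ := fun v => by
    change ‖∫ w, f w • R.U w v‖ ≤ _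
    rw [← integral_mul_const]
    refine (norm_integral_le_integral_norm _).trans_eq (integral_congr_ae ?_)
    exact Eventually.of_forall fun w => by simp [norm_smul, R.norm_U_apply]
  have hex : ∃ T : K →L[ℂ] K, ∀ v, T v = ∫ w, f w • R.U w v :=
    ⟨L.mkContinuous _ hb, fun v => rfl⟩
  have happ : ∀ v, R.op f v = ∫ w, f w • R.U w v := by
    unfold op
    rw [dif_pos hex]
    exact hex.choose_spec
  exact ⟨happ, ContinuousLinearMap.opNorm_le_bound _ (integral_nonneg fun w => norm_nonneg _)
    fun v => by rw [happ]; exact hb v⟩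

theorem op_apply {f : ℝ × ℝ → ℂ} (hf : Integrable f) (v : K) :
    R.op f v = ∫ w, f w • R.U w v :=
  (R.op_spec hf).1 v

theorem norm_op_le {f : ℝ × ℝ → ℂ} (hf : Integrable f) : ‖R.op f‖ ≤ ∫ w, ‖f w‖ :=
  (R.op_spec hf).2

theorem op_sub_smul {f g : ℝ × ℝ → ℂ} (hf : Integrable f) (hg : Integrable g) (c : ℂ) :
    R.op (f - c • g) = R.op f - c • R.op g := by
  ext v
  rw [R.op_apply (hf.sub (hg.smul c))]
  simp only [sub_apply, FunLike.coe_smul, Pi.smul_apply, R.op_apply hf,
    R.op_apply hg, ← integral_smul, Pi.sub_apply, sub_smul, smul_eq_mul, mul_smul]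
  exact integral_sub (R.integrable_smul hf v) ((R.integrable_smul hg v).smul c)

theorem U_mul_op {f : ℝ × ℝ → ℂ} (hf : Integrable f) (w : ℝ × ℝ) :
    R.U w * R.op f = R.op (shift w f) := by
  ext v
  rw [mul_apply_eq_comp, R.op_apply hf, R.op_apply (integrable_shift hf w),
    ← ContinuousLinearMap.integral_comp_comm _ (R.integrable_smul hf v),
    ← integral_add_right_eq_self (fun x => shift w f x • R.U x v) w]
  refine integral_congr_ae (Eventually.of_forall fun x => ?_)
  simp only [map_smul, shift, add_sub_cancel_right]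
  rw [add_comm x w, R.U_add]
  rfl

theorem U_op_comm {f : ℝ × ℝ → ℂ} (hf : Integrable f) (w : ℝ × ℝ) :
    R.op f * R.U w = R.U w * R.op f := by
  ext v
  rw [mul_apply_eq_comp, mul_apply_eq_comp, R.op_apply hf,
    R.op_apply hf, ← ContinuousLinearMap.integral_comp_comm _ (R.integrable_smul hf v)]
  refine integral_congr_ae (Eventually.of_forall fun x => ?_)
  simp only [map_smul, ← mul_apply_eq_comp, ← R.U_add, add_comm]

theorem op_comm {f g : ℝ × ℝ → ℂ} (hf : Integrable f) (hg : Integrable g) :
    R.op f * R.op g = R.op g * R.op f := by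
  ext v
  rw [mul_apply_eq_comp, mul_apply_eq_comp, R.op_apply hf,
    R.op_apply hf, ← ContinuousLinearMap.integral_comp_comm _ (R.integrable_smul hf v)]
  refine integral_congr_ae (Eventually.of_forall fun x => ?_)
  simp only [map_smul]
  rw [← mul_apply_eq_comp, ← R.U_op_comm hg, mul_apply_eq_comp]

theorem star_op {f : ℝ × ℝ → ℂ} (hf : Integrable f) :
    star (R.op f) = R.op fun w => conj (f (-w)) := by
  have hf' : Integrable fun w => conj (f (-w)) :=
    Complex.conjCLE.toContinuousLinearMap.integrable_comp hf.comp_neg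
  rw [ContinuousLinearMap.star_eq_adjoint]
  symm
  rw [ContinuousLinearMap.eq_adjoint_iff]
  intro x y
  rw [R.op_apply hf', R.op_apply hf, ← inner_conj_symm, ← integral_inner (R.integrable_smul hf' x),
    ← integral_conj, ← integral_inner (R.integrable_smul hf y), ← integral_neg_eq_self]
  refine integral_congr_ae (Eventually.of_forall fun w => ?_)
  simp only [inner_smul_right, map_mul, neg_neg, Complex.conj_conj, inner_conj_symm]
  rw [← R.U_star w, ContinuousLinearMap.star_eq_adjoint, ContinuousLinearMap.adjoint_inner_left]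

theorem continuous_op_shift {f : ℝ × ℝ → ℂ} (hf : Integrable f) :
    Continuous fun w => R.op (shift w f) := by
  rw [continuous_iff_continuousAt]
  intro w₀
  rw [ContinuousAt, tendsto_iff_norm_sub_tendsto_zero]
  have hle : ∀ w, ‖R.op (shift w f) - R.op (shift w₀ f)‖ ≤ ∫ x, ‖shift (w - w₀) f x - f x‖ := by
    intro w
    refine ContinuousLinearMap.opNorm_le_bound _ (integral_nonneg fun x => norm_nonneg _) fun v => ?_
    have e : R.op (shift w f) - R.op (shift w₀ f)
        = R.U w₀ * R.op (shift (w - w₀) f - (1:ℂ) • f) := by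
      rw [R.op_sub_smul (integrable_shift hf _) hf, one_smul, mul_sub, ← R.U_mul_op hf,
        ← R.U_mul_op hf, ← R.U_mul_op hf, ← mul_assoc, ← R.U_add, add_sub_cancel]
    rw [e, mul_apply_eq_comp, R.norm_U_apply]
    refine ((R.op _).le_opNorm v).trans (mul_le_mul_of_nonneg_right ?_ (norm_nonneg v))
    refine (R.norm_op_le ((integrable_shift hf _).sub (hf.smul _))).trans_eq ?_
    simp
  have h0 : Tendsto (fun w => w - w₀) (𝓝 w₀) (𝓝 0) := by
    have hc : Continuous fun w : ℝ × ℝ => w - w₀ := continuous_id.sub continuous_const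
    simpa using hc.tendsto w₀
  exact squeeze_zero (fun w => norm_nonneg _) hle ((tendsto_integral_shift_sub hf).comp h0)

/-- The commutative C*-algebra generated by the integrated representation. -/
def alg : StarSubalgebra ℂ (K →L[ℂ] K) :=
  (StarAlgebra.adjoin ℂ {T | ∃ f, Integrable f ∧ R.op f = T}).topologicalClosure

theorem isClosed_alg : IsClosed (R.alg : Set (K →L[ℂ] K)) :=
  StarSubalgebra.isClosed_topologicalClosure _

theorem op_mem_alg {f : ℝ × ℝ → ℂ} (hf : Integrable f) : R.op f ∈ R.alg :=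
  StarSubalgebra.le_topologicalClosure _ (StarAlgebra.subset_adjoin ℂ _ ⟨f, hf, rfl⟩)

theorem mul_comm_alg {a b : K →L[ℂ] K} (ha : a ∈ R.alg) (hb : b ∈ R.alg) : a * b = b * a := by
  set s : Set (K →L[ℂ] K) := {T | ∃ f, Integrable f ∧ R.op f = T}
  have hstar : ∀ x ∈ s ∪ star s, x ∈ s := by
    rintro x (hx | hx)
    · exact hx
    · obtain ⟨f, hf, h⟩ := Set.mem_star.1 hx
      refine ⟨fun w => conj (f (-w)),
        Complex.conjCLE.toContinuousLinearMap.integrable_comp hf.comp_neg, ?_⟩
      rw [← R.star_op hf, h, star_star]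
  have hcomm : ∀ x ∈ s ∪ star s, ∀ y ∈ s ∪ star s, x * y = y * x := by
    intro x hx y hy
    obtain ⟨f, hf, rfl⟩ := hstar x hx
    obtain ⟨g, hg, rfl⟩ := hstar y hy
    exact R.op_comm hf hg
  have h₁ := StarSubalgebra.topologicalClosure_adjoin_le_centralizer_centralizer (R := ℂ) s ha
  have h₂ := StarSubalgebra.topologicalClosure_adjoin_le_centralizer_centralizer (R := ℂ) s hb
  rw [← SetLike.mem_coe, StarSubalgebra.coe_centralizer_centralizer] at h₁ h₂
  exact Set.centralizer_centralizer_comm_of_comm hcomm _ h₁ _ h₂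

instance instCommCStarAlgebraAlg : CommCStarAlgebra R.alg where
  toCStarAlgebra := StarSubalgebra.cstarAlgebra R.alg (h_closed := R.isClosed_alg)
  mul_comm a b := Subtype.ext (R.mul_comm_alg a.2 b.2)

/-- `op f` as an element of `alg`. -/
def opA (f : ℝ × ℝ → ℂ) (hf : Integrable f) : R.alg := ⟨R.op f, R.op_mem_alg hf⟩

theorem norm_apply_alg_le (χ : characterSpace ℂ R.alg) (a : R.alg) :
    ‖χ a‖ ≤ ‖(a : K →L[ℂ] K)‖ := by
  have : Nontrivial R.alg := ⟨⟨1, 0, fun h => by
    have h1 := congrArg χ h
    rw [map_one, map_zero] at h1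
    exact one_ne_zero h1⟩⟩
  have := spectrum.norm_le_norm_of_mem (WeakDual.CharacterSpace.apply_mem_spectrum χ a)
  simpa using this

theorem char_dichotomy (χ : characterSpace ℂ R.alg) :
    (∀ g (hg : Integrable g), χ (R.opA g hg) = 0) ∨
      ∃ l ∈ R.spec, ∀ g (hg : Integrable g), χ (R.opA g hg) = hat g l := by
  by_cases h : ∀ g (hg : Integrable g), χ (R.opA g hg) = 0
  · exact Or.inl h
  push Not at h
  obtain ⟨f, hf, hz⟩ := h
  right
  set z := χ (R.opA f hf) with hzdef
  let c : ℝ × ℝ → ℂ := fun w => χ (R.opA (shift w f) (integrable_shift hf w)) / z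
  have hGc : Continuous fun w => R.opA (shift w f) (integrable_shift hf w) :=
    (R.continuous_op_shift hf).subtype_mk _
  have hcc : Continuous c := ((map_continuous χ).comp hGc).div_const z
  have h0 : c 0 = 1 := by
    have e : R.opA (shift 0 f) (integrable_shift hf 0) = R.opA f hf :=
      Subtype.ext (congrArg R.op (funext fun x => by simp [shift]))
    simp only [c, e]
    exact div_self hz
  have hadd : ∀ w w', c (w + w') = c w * c w' := fun w w' => by
    have e : R.opA (shift (w + w') f) (integrable_shift hf _) * R.opA f hf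
        = R.opA (shift w f) (integrable_shift hf w) * R.opA (shift w' f) (integrable_shift hf w') := by
      refine Subtype.ext ?_
      change R.op (shift (w + w') f) * R.op f = R.op (shift w f) * R.op (shift w' f)
      rw [← R.U_mul_op hf, ← R.U_mul_op hf, ← R.U_mul_op hf, R.U_add, mul_assoc, mul_assoc,
        mul_assoc, ← mul_assoc (R.op f) (R.U w'), R.U_op_comm hf, mul_assoc]
    have e2 := congrArg χ e
    rw [map_mul, map_mul] at e2
    simp only [c]
    field_simp
    exact e2
  have hb : ∀ w, ‖c w‖ ≤ (∫ x, ‖f x‖) / ‖z‖ := fun w => by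
    simp only [c, norm_div]
    gcongr
    refine (R.norm_apply_alg_le χ _).trans ((R.norm_op_le (integrable_shift hf w)).trans_eq ?_)
    exact integral_sub_right_eq_self (fun x => ‖f x‖) w
  obtain ⟨l, hl⟩ := exists_chr_eq hcc h0 hadd hb
  have key : ∀ g (hg : Integrable g), χ (R.opA g hg) = hat g l := by
    intro g hg
    have : SecondCountableTopologyEither (ℝ × ℝ) R.alg := secondCountableTopologyEither_of_left _ _
    let G : ℝ × ℝ → R.alg := fun w => g w • R.opA (shift w f) (integrable_shift hf w)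
    have hG : Integrable G := by
      refine Integrable.mono' (hg.norm.mul_const (∫ x, ‖f x‖))
        (hg.1.smul hGc.aestronglyMeasurable) (Eventually.of_forall fun w => ?_)
      simp only [G, norm_smul]
      refine mul_le_mul_of_nonneg_left ?_ (norm_nonneg _)
      refine (R.norm_op_le (integrable_shift hf w)).trans_eq ?_
      exact integral_sub_right_eq_self (fun x => ‖f x‖) w
    let L : R.alg →L[ℂ] (K →L[ℂ] K) :=
      LinearMap.mkContinuous R.alg.toSubalgebra.val.toLinearMap 1 fun a => by simp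
    have hint : ∫ w, G w = R.opA g hg * R.opA f hf := by
      refine Subtype.ext ?_
      change L (∫ w, G w) = R.op g * R.op f
      rw [← L.integral_comp_comm hG]
      ext v
      rw [ContinuousLinearMap.integral_apply (L.integrable_comp hG),
        mul_apply_eq_comp, R.op_apply hg]
      refine integral_congr_ae (Eventually.of_forall fun w => ?_)
      change g w • R.op (shift w f) v = g w • R.U w (R.op f v)
      rw [← R.U_mul_op hf]
      rfl
    have e : (∫ w, g w * χ (R.opA (shift w f) (integrable_shift hf w))) = χ (R.opA g hg) * z := by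
      rw [hzdef, ← map_mul, ← hint]
      change _ = CharacterSpace.toCLM χ (∫ w, G w)
      rw [← ContinuousLinearMap.integral_comp_comm (CharacterSpace.toCLM χ) hG]
      refine integral_congr_ae (Eventually.of_forall fun w => ?_)
      simp [G]
    have e2 : hat g l * z = ∫ w, g w * χ (R.opA (shift w f) (integrable_shift hf w)) := by
      rw [hat, ← integral_mul_const]
      refine integral_congr_ae (Eventually.of_forall fun w => ?_)
      simp only [← hl, c]
      field_simp
    exact mul_right_cancel₀ hz (e2.trans e).symm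
  exact ⟨l, fun g hg => key g hg ▸ R.norm_apply_alg_le χ _, key⟩

theorem norm_le_of_char [Nontrivial K] (a : R.alg) {c : ℝ} (hc : 0 ≤ c)
    (h : ∀ χ : characterSpace ℂ R.alg, ‖χ a‖ ≤ c) : ‖(a : K →L[ℂ] K)‖ ≤ c := by
  have e : ‖gelfandTransform ℂ R.alg a‖ = ‖a‖ :=
    (gelfandTransform_isometry R.alg).norm_map_of_map_zero (map_zero _) a
  change ‖a‖ ≤ c
  rw [← e, ContinuousMap.norm_le _ hc]
  exact h

theorem isClosed_spec : IsClosed R.spec := by
  rw [spec, Set.ofPred_forall]
  refine isClosed_iInter fun f => ?_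
  rw [Set.ofPred_forall]
  exact isClosed_iInter fun hf => isClosed_le (continuous_hat hf).norm continuous_const

theorem norm_op_le_of_spec {f : ℝ × ℝ → ℂ} (hf : Integrable f) {c : ℝ} (hc : 0 ≤ c)
    (h : ∀ l ∈ R.spec, ‖hat f l‖ ≤ c) : ‖R.op f‖ ≤ c := by
  rcases subsingleton_or_nontrivial K with hK | hK
  · rw [show R.op f = 0 from ContinuousLinearMap.ext fun v => Subsingleton.elim _ _, norm_zero]
    exact hc
  refine R.norm_le_of_char (R.opA f hf) hc fun χ => ?_
  rcases R.char_dichotomy χ with h0 | ⟨l, hl, hk⟩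
  · rw [h0, norm_zero]; exact hc
  · rw [hk]; exact h l hl

theorem op_eq_zero {f : ℝ × ℝ → ℂ} (hf : Integrable f) (h : ∀ l ∈ R.spec, hat f l = 0) :
    R.op f = 0 :=
  norm_le_zero_iff.1 (R.norm_op_le_of_spec hf le_rfl fun l hl => by simp [h l hl])

theorem op_mul_op {f g k : ℝ × ℝ → ℂ} (hf : Integrable f) (hg : Integrable g) (hk : Integrable k)
    (h : ∀ l ∈ R.spec, hat f l * hat g l = hat k l) : R.op f * R.op g = R.op k := by
  rcases subsingleton_or_nontrivial K with hK | hK
  · exact ContinuousLinearMap.ext fun v => Subsingleton.elim _ _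
  rw [← sub_eq_zero, ← norm_le_zero_iff]
  refine R.norm_le_of_char (R.opA f hf * R.opA g hg - R.opA k hk) le_rfl fun χ => ?_
  rcases R.char_dichotomy χ with h0 | ⟨l, hl, hk'⟩
  · simp [h0]
  · simp [hk', h l hl]

theorem exists_op_apply_near (v : K) {ε : ℝ} (hε : 0 < ε) :
    ∃ f, Integrable f ∧ ‖R.op f v - v‖ ≤ ε := by
  obtain ⟨ρ, hρ, hb⟩ := Metric.continuousAt_iff.1 ((R.U_cont v).continuousAt (x := 0)) ε hε
  set A : Set (ℝ × ℝ) := Metric.ball 0 ρ
  have hA : 0 < (volume A).toReal :=
    ENNReal.toReal_pos (Metric.measure_ball_pos _ _ hρ).ne' measure_ball_lt_top.ne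
  have hi : IntegrableOn (fun w => R.U w v) A :=
    ((R.U_cont v).continuousOn.integrableOn_compact (isCompact_closedBall 0 ρ)).mono_set
      Metric.ball_subset_closedBall
  set a := (volume A).toReal with ha
  let f : ℝ × ℝ → ℂ := A.indicator fun _ => (((a⁻¹ : ℝ)) : ℂ)
  have hf : Integrable f := by
    simp only [f]
    rw [integrable_indicator_iff measurableSet_ball]
    exact integrableOn_const measure_ball_lt_top.ne
  refine ⟨f, hf, ?_⟩
  have e : R.op f v - v = a⁻¹ • ∫ w in A, (R.U w v - v) := by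
    rw [R.op_apply hf, integral_sub hi (integrableOn_const measure_ball_lt_top.ne),
      setIntegral_const, smul_sub, smul_smul, measureReal_def, ← ha, inv_mul_cancel₀ hA.ne',
      one_smul]
    congr 1
    rw [← integral_smul, ← integral_indicator measurableSet_ball]
    refine integral_congr_ae (Eventually.of_forall fun w => ?_)
    simp only [f]
    by_cases hw : w ∈ A
    · rw [Set.indicator_of_mem hw, Set.indicator_of_mem hw]
      exact Complex.coe_smul _ _
    · rw [Set.indicator_of_notMem hw, Set.indicator_of_notMem hw, zero_smul]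
  rw [e, norm_smul, Real.norm_of_nonneg (inv_nonneg.2 hA.le)]
  have hbd : ‖∫ w in A, (R.U w v - v)‖ ≤ ε * a := by
    refine norm_setIntegral_le_of_norm_le_const measure_ball_lt_top fun w hw => ?_
    have := hb (Metric.mem_ball.1 hw)
    rw [R.U_zero, one_apply_eq_self, dist_eq_norm] at this
    exact this.le
  calc a⁻¹ * ‖∫ w in A, (R.U w v - v)‖ ≤ a⁻¹ * (ε * a) := by gcongr
    _ = ε := by field_simp

theorem spec_nonempty [Nontrivial K] : R.spec.Nonempty := by
  by_contra h
  rw [Set.not_nonempty_iff_eq_empty] at h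
  obtain ⟨v, hv⟩ := exists_ne (0 : K)
  obtain ⟨f, hf, hfv⟩ := R.exists_op_apply_near v (half_pos (norm_pos_iff.2 hv))
  rw [R.op_eq_zero hf (by simp [h])] at hfv
  simp only [_root_.zero_apply, zero_sub, norm_neg] at hfv
  linarith [norm_pos_iff.2 hv]

theorem op_ne_zero {f : ℝ × ℝ → ℂ} (hf : Integrable f) {l : ℝ × ℝ} (hl : l ∈ R.spec)
    (h : hat f l = 1) : R.op f ≠ 0 := fun h0 => by
  have := hl f hf
  rw [h, h0] at this
  simp at this
  linarith

/-- An approximate eigenvector at a point of the spectrum, in the range of `op`, so that it can be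
taken in any dense subset invariant under `op`. -/
theorem exists_approx {l : ℝ × ℝ} (hl : l ∈ R.spec) {η : ℝ} (hη : 0 < η) :
    ∃ f : ℝ × ℝ → ℂ, Integrable f ∧ R.op f ≠ 0 ∧ ∀ u : K,
      (∀ t : ℝ, ‖R.U (t, 0) (R.op f u) - Complex.exp (I * (l.1 * t : ℝ)) • R.op f u‖
          ≤ η * |t| * ‖R.op f u‖) ∧
      ∀ s : ℝ, ‖R.U (0, s) (R.op f u) - Complex.exp (I * (l.2 * s : ℝ)) • R.op f u‖
          ≤ η * |s| * ‖R.op f u‖ := by
  obtain ⟨h, hh, hh1, hone, hzero⟩ := exists_window₂ l hη
  obtain ⟨f, hf, -, fone, fzero⟩ := exists_window₂ l (half_pos hη)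
  refine ⟨f, hf, R.op_ne_zero hf hl (fone l (by rw [dist_self]; linarith)), fun u => ?_⟩
  have hfh : R.op h * R.op f = R.op f := R.op_mul_op hh hf hf fun m _ => by
    rcases le_or_gt (η / 2) (dist m l) with hm | hm
    · rw [fzero m hm, mul_zero]
    · rw [hone m hm.le, one_mul]
  have main : ∀ (w : ℝ × ℝ) (B : ℝ), 0 ≤ B →
      (∀ m, dist m l < η → ‖chr m w - chr l w‖ ≤ B) →
      ‖R.U w (R.op f u) - chr l w • R.op f u‖ ≤ B * ‖R.op f u‖ := by
    intro w B hB hm
    have hi : Integrable (shift w h - chr l w • h) :=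
      (integrable_shift hh w).sub (hh.smul (chr l w))
    have e : R.U w (R.op f u) - chr l w • R.op f u
        = R.op (shift w h - chr l w • h) (R.op f u) := by
      rw [R.op_sub_smul (integrable_shift hh w) hh, sub_apply, FunLike.coe_smul,
        Pi.smul_apply, ← R.U_mul_op hh, mul_apply_eq_comp,
        ← mul_apply_eq_comp (R.op h), hfh]
    rw [e]
    refine ((R.op _).le_opNorm _).trans (mul_le_mul_of_nonneg_right ?_ (norm_nonneg _))
    refine R.norm_op_le_of_spec hi hB fun m _ => ?_
    rw [hat_sub_smul (integrable_shift hh w) hh, hat_shift, ← sub_mul, norm_mul]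
    rcases le_or_gt η (dist m l) with hd | hd
    · rw [hzero m hd, norm_zero, mul_zero]; exact hB
    · calc ‖chr m w - chr l w‖ * ‖hat h m‖ ≤ B * 1 := by
            gcongr
            · exact hm m hd
            · exact hh1 m
        _ = B := mul_one B
  have lip : ∀ x y : ℝ, ‖Complex.exp (I * (x : ℂ)) - Complex.exp (I * (y : ℂ))‖ ≤ |x - y| := by
    intro x y
    rw [show Complex.exp (I * (x : ℂ)) - Complex.exp (I * (y : ℂ))
        = Complex.exp (I * (y : ℂ)) * (Complex.exp (I * ((x - y : ℝ) : ℂ)) - 1) by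
      rw [mul_sub, mul_one, ← Complex.exp_add]; push_cast; ring_nf, norm_mul, mul_comm I (y : ℂ),
      Complex.norm_exp_ofReal_mul_I, one_mul]
    exact (Real.norm_exp_I_mul_ofReal_sub_one_le).trans_eq (Real.norm_eq_abs _)
  constructor
  · intro t
    have := main (t, 0) (η * |t|) (by positivity) fun m hm => by
      simp only [chr, mul_zero, add_zero]
      refine (lip _ _).trans ?_
      rw [← sub_mul, abs_mul]
      gcongr
      rw [Prod.dist_eq, max_lt_iff, Real.dist_eq] at hm
      exact hm.1.le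
    simpa [chr] using this
  · intro s
    have := main (0, s) (η * |s|) (by positivity) fun m hm => by
      simp only [chr, mul_zero, zero_add]
      refine (lip _ _).trans ?_
      rw [← sub_mul, abs_mul]
      gcongr
      rw [Prod.dist_eq, max_lt_iff, Real.dist_eq, Real.dist_eq] at hm
      exact hm.2.le
    simpa [chr] using this

/-- An isolated point of the spectrum is an eigenvalue. -/
theorem exists_eigen {l : ℝ × ℝ} (hl : l ∈ R.spec) {δ : ℝ} (hδ : 0 < δ)
    (hiso : ∀ m ∈ R.spec, dist m l < δ → m = l) :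
    ∃ f : ℝ × ℝ → ℂ, Integrable f ∧ R.op f ≠ 0 ∧
      ∀ (u : K) (w : ℝ × ℝ), R.U w (R.op f u) = chr l w • R.op f u := by
  obtain ⟨f, hf, -, hone, hzero⟩ := exists_window₂ l hδ
  refine ⟨f, hf, R.op_ne_zero hf hl (hone l (by rw [dist_self]; linarith)), fun u w => ?_⟩
  have h0 : R.op (shift w f - chr l w • f) = 0 := by
    refine R.op_eq_zero ((integrable_shift hf w).sub (hf.smul (chr l w))) fun m hm => ?_
    rw [hat_sub_smul (integrable_shift hf w) hf, hat_shift]
    rcases le_or_gt δ (dist m l) with hd | hd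
    · simp [hzero m hd]
    · rw [hiso m hm hd, sub_self]
  rw [R.op_sub_smul (integrable_shift hf w) hf, sub_eq_zero, ← R.U_mul_op hf] at h0
  simpa [mul_apply_eq_comp] using DFunLike.congr_fun h0 u

/-- Elements of the group that are `1` on the spectrum act trivially. -/
theorem U_eq_one {w : ℝ × ℝ} (h : ∀ l ∈ R.spec, chr l w = 1) : R.U w = 1 := by
  ext v
  rw [one_apply_eq_self, ← sub_eq_zero, ← norm_le_zero_iff]
  refine le_of_forall_pos_le_add fun ε hε => ?_
  obtain ⟨f, hf, hfv⟩ := R.exists_op_apply_near v (half_pos hε)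
  have h0 : R.op (shift w f - (1 : ℂ) • f) = 0 := by
    refine R.op_eq_zero ((integrable_shift hf w).sub (hf.smul (1:ℂ))) fun m hm => ?_
    rw [hat_sub_smul (integrable_shift hf w) hf, hat_shift, h m hm, sub_self]
  rw [R.op_sub_smul (integrable_shift hf w) hf, one_smul, sub_eq_zero, ← R.U_mul_op hf] at h0
  have hfix : R.U w (R.op f v) = R.op f v := DFunLike.congr_fun h0 v
  calc ‖R.U w v - v‖ = ‖R.U w (v - R.op f v) + (R.op f v - v)‖ := by
        rw [map_sub, hfix]; congr 1; abel
    _ ≤ ‖v - R.op f v‖ + ‖R.op f v - v‖ := (norm_add_le _ _).trans_eq (by rw [R.norm_U_apply])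
    _ ≤ 0 + ε := by rw [norm_sub_rev v]; linarith

theorem U_fst_eq_one (h : ∀ l ∈ R.spec, l.1 = 0) (t : ℝ) : R.U (t, 0) = 1 :=
  R.U_eq_one fun l hl => by simp [chr, h l hl]

theorem U_snd_eq_one (h : ∀ l ∈ R.spec, l.2 = 0) (s : ℝ) : R.U (0, s) = 1 :=
  R.U_eq_one fun l hl => by simp [chr, h l hl]

end Rep

end P132.Spectral
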